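import Vale.Agent.P216.LS.Poly

/-!
# Repetition of polygons, uniform continuity, and the Milnor homotopy (P216, Theorem A)
-/

open Set Filter Topology

namespace Vale.Agent.P216.LS

open L250

variable {M : Type*} [MetricSpace M]

/-! ## Repetition -/

section Rep

variable {K q : ℕ}

/-- The polygon `x` run through `q` times. -/
def prep (q : ℕ) (x : ZMod K → M) : ZMod (q * K) → M :=
  fun i => x (ZMod.castHom (dvd_mul_left K q) (ZMod K) i)

omit [MetricSpace M] in
@[simp] theorem prep_intCast (x : ZMod K → M) (n : ℤ) : prep q x (n : ZMod (q * K)) = x n := by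
  rw [prep, map_intCast]

omit [MetricSpace M] in
@[simp] theorem prep_natCast (x : ZMod K → M) (n : ℕ) : prep q x (n : ZMod (q * K)) = x n := by
  rw [prep, map_natCast]

omit [MetricSpace M] in
theorem prep_add_one (x : ZMod K → M) (i : ZMod (q * K)) :
    prep q x (i + 1) = x (ZMod.castHom (dvd_mul_left K q) (ZMod K) i + 1) := by
  rw [prep, map_add, map_one]

omit [MetricSpace M] in
theorem prep_add_K (x : ZMod K → M) (i : ZMod (q * K)) :
    prep q x (i + (K : ZMod (q * K))) = prep q x i := by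
  rw [prep, prep, map_add, map_natCast, ZMod.natCast_self, add_zero]

omit [MetricSpace M] in
theorem prep_injective [NeZero K] [NeZero q] :
    Function.Injective (prep q : (ZMod K → M) → ZMod (q * K) → M) := by
  intro x y hxy
  ext i
  obtain ⟨n, rfl⟩ : ∃ n : ℤ, (n : ZMod K) = i := ⟨(i.val : ℤ), by simp⟩
  have := congrFun hxy (n : ZMod (q * K))
  simpa using this

omit [MetricSpace M] in
/-- A polygon invariant under the shift by `K` is a repetition. -/
theorem exists_prep [NeZero K] [NeZero q] {z : ZMod (q * K) → M}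
    (hz : ∀ i, z (i + (K : ZMod (q * K))) = z i) :
    ∃ x : ZMod K → M, z = prep q x := by
  have h1 : ∀ (m : ℕ) (i : ZMod (q * K)), z (i + m * (K : ZMod (q * K))) = z i := by
    intro m
    induction m with
    | zero => intro i; simp
    | succ m ih =>
      intro i
      have := ih (i + (K : ZMod (q * K)))
      rw [hz] at this
      rw [← this]
      congr 1
      push_cast
      ring
  refine ⟨fun i => z ((i.val : ℕ) : ZMod (q * K)), ?_⟩
  ext i
  obtain ⟨n, rfl⟩ : ∃ n : ℕ, (n : ZMod (q * K)) = i := ⟨i.val, by simp⟩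
  rw [prep_natCast, ZMod.val_natCast]
  have h2 : (n : ZMod (q * K)) = ((n % K : ℕ) : ZMod (q * K)) +
      ((n / K : ℕ) : ZMod (q * K)) * (K : ZMod (q * K)) := by
    rw [← Nat.cast_mul, ← Nat.cast_add]
    congr 1
    rw [mul_comm]
    exact (Nat.mod_add_div n K).symm
  conv_lhs => rw [h2]
  exact h1 _ _

theorem sum_range_mul (f : ℕ → ℝ) (hf : ∀ n, f (n + K) = f n) (q : ℕ) :
    ∑ n ∈ Finset.range (q * K), f n = q * ∑ n ∈ Finset.range K, f n := by
  have hper : ∀ (m n : ℕ), f (m * K + n) = f n := by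
    intro m
    induction m with
    | zero => intro n; simp
    | succ m ih =>
      intro n
      rw [← ih n, ← hf (m * K + n)]
      congr 1
      ring
  induction q with
  | zero => simp
  | succ q ih =>
    rw [add_mul, one_mul, Finset.sum_range_add, ih]
    simp only [hper]
    push_cast
    ring

theorem E_prep [NeZero K] [NeZero q] (x : ZMod K → M) : E (prep q x) = q ^ 2 * E x := by
  rw [E, E, sum_zmod, sum_zmod]
  have h1 : ∀ n : ℕ, dist (prep q x (n : ZMod (q * K))) (prep q x ((n : ZMod (q * K)) + 1)) ^ 2 =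
      dist (x (n : ZMod K)) (x ((n : ZMod K) + 1)) ^ 2 := by
    intro n
    rw [prep_natCast, prep_add_one, map_natCast]
  simp only [h1]
  rw [sum_range_mul (fun n => dist (x (n : ZMod K)) (x ((n : ZMod K) + 1)) ^ 2) (fun n => by simp)]
  push_cast
  ring

omit [MetricSpace M] in
theorem sample_iter [NeZero K] [NeZero q] {g : ℝ → M} (hg : Function.Periodic g 1) :
    sample (q * K) (fun t => g (q * t)) = prep q (sample K g) := by
  have hg' : Function.Periodic (fun t => g ((q : ℝ) * t)) 1 := fun t => by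
    have := hg.nat_mul q (q * t)
    simpa [mul_add] using this
  have hK : (0 : ℝ) < K := cast_pos_K
  have hq : (0 : ℝ) < q := cast_pos_K
  ext i
  obtain ⟨n, rfl⟩ : ∃ n : ℤ, (n : ZMod (q * K)) = i := ⟨(i.val : ℤ), by simp⟩
  rw [sample_intCast hg', prep_intCast, sample_intCast hg]
  congr 1
  push_cast
  field_simp

theorem itp_prep [NeZero K] [NeZero q] (x : ZMod K → M) (t : ℝ) :
    itp (prep q x) t = itp x (q * t) := by
  have h1 : ((q * K : ℕ) : ℝ) * t = K * (q * t) := by push_cast; ring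
  rw [itp, itp, h1, prep_intCast, prep_add_one, map_intCast]

omit [MetricSpace M] in
theorem prep_pshift (x : ZMod K → M) (j : ℤ) :
    prep q (pshift (j : ZMod K) x) = pshift (j : ZMod (q * K)) (prep q x) := by
  ext i
  simp only [prep, pshift, map_add, map_intCast]

omit [MetricSpace M] in
theorem prep_prev (x : ZMod K → M) : prep q (prev x) = prev (prep q x) := by
  ext i
  simp only [prep, prev, map_neg]

end Rep

/-! ## Uniform continuity -/

theorem unifCont_seg [CompactSpace M] {ρ ρ' : ℝ} (h : UniqSeg M ρ) (hρ : ρ' < ρ) {ε : ℝ}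
    (hε : 0 < ε) : ∃ δ > 0, ∀ (x x' y y' : M) (t t' : ℝ), dist x y ≤ ρ' → dist x' y' ≤ ρ' →
      t ∈ Icc (0 : ℝ) 1 → t' ∈ Icc (0 : ℝ) 1 → dist x x' ≤ δ → dist y y' ≤ δ → |t - t'| ≤ δ →
      dist (seg x y t) (seg x' y' t') ≤ ε := by
  let D : Set (M × M × ℝ) := {p | dist p.1 p.2.1 ≤ ρ' ∧ p.2.2 ∈ Icc (0 : ℝ) 1}
  have hD : IsCompact D := by
    have h1 : IsClosed {p : M × M × ℝ | dist p.1 p.2.1 ≤ ρ'} :=
      isClosed_le (by fun_prop) continuous_const
    have h2 : IsCompact ((univ : Set M) ×ˢ ((univ : Set M) ×ˢ Icc (0 : ℝ) 1)) :=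
      isCompact_univ.prod (isCompact_univ.prod isCompact_Icc)
    have h3 : D = {p : M × M × ℝ | dist p.1 p.2.1 ≤ ρ'} ∩
        ((univ : Set M) ×ˢ ((univ : Set M) ×ˢ Icc (0 : ℝ) 1)) := by
      ext p; simp [D]
    rw [h3, inter_comm]
    exact h2.inter_right h1
  have hc : ContinuousOn (fun p : M × M × ℝ => seg p.1 p.2.1 p.2.2) D :=
    (continuousOn_seg h).mono fun p hp => ⟨hp.1.trans_lt hρ, hp.2⟩
  have hu := hD.uniformContinuousOn_of_continuous hc
  rw [Metric.uniformContinuousOn_iff] at hu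
  obtain ⟨δ, hδ, H⟩ := hu ε hε
  refine ⟨δ / 2, by positivity, fun x x' y y' t t' h1 h2 h3 h4 h5 h6 h7 => ?_⟩
  refine (H (x, y, t) ⟨h1, h3⟩ (x', y', t') ⟨h2, h4⟩ ?_).le
  rw [Prod.dist_eq, Prod.dist_eq, Real.dist_eq]
  exact max_lt (by linarith) (max_lt (by simpa using by linarith) (by simpa using by linarith))

theorem unifCont_itp [CompactSpace M] {K : ℕ} [NeZero K] {ρ ρ' : ℝ} (h : UniqSeg M ρ)
    (hρ : ρ' < ρ) {ε : ℝ} (hε : 0 < ε) : ∃ δ > 0, ∀ x x' : ZMod K → M,
      (∀ i, dist (x i) (x (i + 1)) ≤ ρ') → (∀ i, dist (x' i) (x' (i + 1)) ≤ ρ') →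
      (∀ i, dist (x i) (x' i) ≤ δ) → ∀ t, dist (itp x t) (itp x' t) ≤ ε := by
  obtain ⟨δ, hδ, H⟩ := unifCont_seg h hρ hε
  refine ⟨δ, hδ, fun x x' h1 h2 h3 t => ?_⟩
  exact H _ _ _ _ _ _ (h1 _) (h2 _) ⟨Int.fract_nonneg _, (Int.fract_lt_one _).le⟩
    ⟨Int.fract_nonneg _, (Int.fract_lt_one _).le⟩ (h3 _) (h3 _) (by simpa using hδ.le)

/-! ## The Milnor homotopy -/

section Milnor

variable {K : ℕ} [NeZero K]

/-- On each `[n / K, (n + 1) / K]` the part of `g` up to `(n + τ) / K` is replaced by a segment. -/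
noncomputable def Mi (K : ℕ) (τ : ℝ) (g : ℝ → M) : ℝ → M := fun t =>
  seg (g (⌊K * t⌋ / K)) (g ((⌊K * t⌋ + max (Int.fract (K * t)) τ) / K))
    (Int.fract (K * t) / max (Int.fract (K * t)) τ)

theorem Mi_apply (g : ℝ → M) {τ : ℝ} (hτ : τ ∈ Icc (0 : ℝ) 1) (n : ℤ) {u : ℝ}
    (hu : u ∈ Icc (0 : ℝ) 1) :
    Mi K τ g ((n + u) / K) = seg (g (n / K)) (g ((n + max u τ) / K)) (u / max u τ) := by
  have hK := cast_pos_K (K := K)
  have h1 : (K : ℝ) * ((n + u) / K) = n + u := by field_simp
  rw [Mi, h1]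
  rcases hu.2.eq_or_lt with h2 | h2
  · subst h2
    have h3 : (n : ℝ) + 1 = ((n + 1 : ℤ) : ℝ) := by push_cast; rfl
    rw [h3, Int.floor_intCast, Int.fract_intCast, zero_div, seg_zero, max_eq_left hτ.2, div_one,
      seg_one, h3]
  · have h3 : ⌊(n : ℝ) + u⌋ = n := Int.floor_eq_iff.2 ⟨by linarith [hu.1], by linarith⟩
    have h4 : Int.fract ((n : ℝ) + u) = u := by rw [Int.fract, h3]; ring
    rw [h3, h4]

/-- Every real number is `(n + u) / K`. -/
theorem exists_eq_div (K : ℕ) [NeZero K] (t : ℝ) :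
    ∃ (n : ℤ) (u : ℝ), u ∈ Icc (0 : ℝ) 1 ∧ t = (n + u) / K := by
  have hK := cast_pos_K (K := K)
  refine ⟨⌊K * t⌋, Int.fract (K * t), ⟨Int.fract_nonneg _, (Int.fract_lt_one _).le⟩, ?_⟩
  rw [Int.floor_add_fract]; field_simp

theorem Mi_int (g : ℝ → M) {τ : ℝ} (hτ : τ ∈ Icc (0 : ℝ) 1) (n : ℤ) :
    Mi K τ g (n / K) = g (n / K) := by
  have := Mi_apply (K := K) g hτ n (u := 0) ⟨le_rfl, zero_le_one⟩
  simpa using this

theorem Mi_zero (g : ℝ → M) : Mi K 0 g = g := by
  ext t
  obtain ⟨n, u, hu, rfl⟩ := exists_eq_div K t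
  rw [Mi_apply g ⟨le_rfl, zero_le_one⟩ n hu, max_eq_left hu.1]
  rcases hu.1.eq_or_lt with h | h
  · rw [← h]; simp
  · rw [div_self h.ne', seg_one]

theorem Mi_one {g : ℝ → M} (hg : Function.Periodic g 1) : Mi K 1 g = itp (sample K g) := by
  ext t
  obtain ⟨n, u, hu, rfl⟩ := exists_eq_div K t
  rw [Mi_apply g ⟨zero_le_one, le_rfl⟩ n hu, itp_apply _ _ hu, max_eq_right hu.2, div_one,
    sample_intCast hg]
  have e1 : ((n : ZMod K) + 1) = ((n + 1 : ℤ) : ZMod K) := by push_cast; rfl
  rw [e1, sample_intCast hg]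
  push_cast
  rfl

theorem Mi_periodic {g : ℝ → M} (hg : Function.Periodic g 1) (τ : ℝ) :
    Function.Periodic (Mi K τ g) 1 := by
  have hK := cast_pos_K (K := K)
  intro t
  have h1 : (K : ℝ) * (t + 1) = K * t + (K : ℤ) := by push_cast; ring
  have h2 : ∀ a : ℝ, (a + K) / K = a / K + 1 := fun a => by field_simp
  simp only [Mi, h1, Int.floor_add_intCast, Int.fract_add_intCast]
  push_cast
  rw [h2, hg, show (⌊(K : ℝ) * t⌋ : ℝ) + K + max (Int.fract (K * t)) τ =
    (⌊(K : ℝ) * t⌋ + max (Int.fract (K * t)) τ) + K by ring, h2, hg]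

/-- The Milnor homotopy does not increase the energy. -/
theorem hasE_Mi {ρ : ℝ} (h : UniqSeg M ρ) (hρ : 0 < ρ) {g : ℝ → M} (hg : Function.Periodic g 1)
    {C : ℝ} (hC : HasE g C) (hCK : C < K * ρ ^ 2) {τ : ℝ} (hτ : τ ∈ Icc (0 : ℝ) 1) :
    HasE (Mi K τ g) C := by
  have hK := cast_pos_K (K := K)
  rcases hτ.1.eq_or_lt with h0 | h0
  · rw [← h0, Mi_zero]; exact hC
  obtain ⟨e, he, h1, h2⟩ := hC.cert
  have mono : ∀ s t, s ≤ t → e s ≤ e t := fun s t hst => (h1 s t).mono_fun le_rfl hst le_rfl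
  have key := hasE_of_pieces (Mi_periodic (K := K) hg τ) (NeZero.pos K) (c := fun n t =>
    if t ≤ (n + τ) / K then (e ((n + τ) / K) - e (n / K)) * ((t - n / K) / ((n + τ) / K - n / K))
    else e t - e (n / K)) ?_
  · convert key using 1
    have h3 : ∀ n ∈ Finset.range K, ((if ((n : ℝ) + 1) / K ≤ (n + τ) / K then
        (e ((n + τ) / K) - e (n / K)) * ((((n : ℝ) + 1) / K - n / K) / ((n + τ) / K - n / K))
        else e (((n : ℝ) + 1) / K) - e (n / K)) - (if (n : ℝ) / K ≤ (n + τ) / K then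
        (e ((n + τ) / K) - e (n / K)) * (((n : ℝ) / K - n / K) / ((n + τ) / K - n / K))
        else e ((n : ℝ) / K) - e (n / K))) = e ((n + 1 : ℕ) / K) - e ((n : ℕ) / K) := by
      intro n _
      have h4 : (n : ℝ) / K ≤ (n + τ) / K := by gcongr; linarith
      rw [if_pos h4, sub_self, zero_div, mul_zero, sub_zero]
      push_cast
      by_cases h5 : ((n : ℝ) + 1) / K ≤ (n + τ) / K
      · have h6 : τ = 1 := by
          have := (div_le_div_iff_of_pos_right hK).1 h5
          linarith [hτ.2]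
        subst h6
        rw [if_pos le_rfl, div_self, mul_one]
        have : ((n : ℝ) + 1) / K - n / K = 1 / K := by ring
        rw [this]
        positivity
      · rw [if_neg h5]
    rw [Finset.sum_congr rfl h3, Finset.sum_range_sub (fun n : ℕ => e ((n : ℕ) / K))]
    have h7 := h2 0
    rw [zero_add, he] at h7
    rw [div_self hK.ne', h7, Nat.cast_zero, zero_div, he]
    linarith
  · intro n _
    have hlt : (n : ℝ) / K < (n + τ) / K := by gcongr; linarith
    have hle : ((n : ℝ) + τ) / K ≤ (n + 1) / K := by gcongr; exact hτ.2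
    have hd : dist (g (n / K)) (g ((n + τ) / K)) ^ 2 ≤
        ((n + τ) / K - n / K) * (e ((n + τ) / K) - e (n / K)) :=
      h1 (n / K) ((n + τ) / K) _ _ le_rfl hlt.le le_rfl
    have hdρ : dist (g (n / K)) (g ((n + τ) / K)) < ρ := by
      have h3 : e ((n + τ) / K) - e (n / K) ≤ C := by
        have h4 : ((n : ℝ) + τ) / K ≤ n / K + 1 := by
          rw [div_add' _ _ _ hK.ne', div_le_div_iff_of_pos_right hK]
          have : (1 : ℝ) ≤ K := by exact_mod_cast NeZero.pos K
          linarith [hτ.2]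
        have h5 := mono _ _ h4
        rw [h2] at h5
        linarith
      have h6 : ((n : ℝ) + τ) / K - n / K = τ / K := by ring
      have h7 : 0 ≤ C := hC.nonneg
      have h8 : τ / K * C ≤ 1 / K * C := by gcongr; exact hτ.2
      have h9 : (1 : ℝ) / K * C < ρ ^ 2 := by
        rw [one_div, inv_mul_lt_iff₀ hK]; exact hCK
      have h10 : dist (g (n / K)) (g ((n + τ) / K)) ^ 2 < ρ ^ 2 := by
        refine (hd.trans ?_).trans_lt h9
        rw [h6]
        exact (mul_le_mul_of_nonneg_left h3 (by positivity)).trans h8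
      exact lt_of_pow_lt_pow_left₀ 2 hρ.le h10
    apply Cert.glue (b := ((n : ℝ) + τ) / K)
    · have h3 := cert_seg h hdρ hlt hd
      refine h3.congr (fun t ht => ?_) fun t ht => by rw [if_pos ht.2]
      have h4 : t = (((n : ℤ) : ℝ) + (K * t - n)) / K := by
        push_cast; field_simp; ring
      have h5 : (K : ℝ) * t - n ∈ Icc (0 : ℝ) 1 := by
        have h6 := ht.1
        have h7 := ht.2.trans hle
        rw [div_le_iff₀ hK] at h6
        rw [le_div_iff₀ hK] at h7
        constructor <;> linarith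
      have h8 : (K : ℝ) * t - n ≤ τ := by
        have h7 := ht.2
        rw [le_div_iff₀ hK] at h7
        linarith
      conv_lhs => rw [h4]
      rw [Mi_apply g hτ n h5, max_eq_right h8]
      have h9 : (t - n / K) / (((n : ℝ) + τ) / K - n / K) = (K * t - n) / τ := by
        rw [show ((n : ℝ) + τ) / K - n / K = τ / K by ring, div_eq_div_iff (by positivity) h0.ne']
        field_simp
      rw [h9]
      simp
    · have h3 : Cert g (fun t => e t - e (n / K)) ((n + τ) / K) ((n + 1) / K) := by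
        intro s t hs hst ht
        have := h1 s t s t le_rfl hst le_rfl
        simpa using this
      refine h3.congr (fun t ht => ?_) fun t ht => ?_
      · have h4 : t = (((n : ℤ) : ℝ) + (K * t - n)) / K := by
          push_cast; field_simp; ring
        have h5 : τ ≤ (K : ℝ) * t - n := by
          have h6 := ht.1
          rw [div_le_iff₀ hK] at h6
          linarith
        have h5' : (K : ℝ) * t - n ≤ 1 := by
          have h6 := ht.2
          rw [le_div_iff₀ hK] at h6
          linarith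
        conv_lhs => rw [h4]
        have h6 : (K : ℝ) * t - n ≠ 0 := (h0.trans_le h5).ne'
        rw [Mi_apply g hτ n ⟨h0.le.trans h5, h5'⟩, max_eq_left h5, div_self h6, seg_one, ← h4]
      · by_cases h4 : t ≤ (n + τ) / K
        · have h5 : t = (n + τ) / K := le_antisymm h4 ht.1
          rw [if_pos h4, h5, div_self (by linarith), mul_one]
        · rw [if_neg h4]

/-! ### Symmetries -/

omit [NeZero K] in
theorem Mi_const (τ : ℝ) (a : M) : Mi K τ (fun _ => a) = fun _ => a := by
  ext t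
  simp [Mi]

theorem Mi_rot (g : ℝ → M) (τ : ℝ) (j : ℤ) (t : ℝ) :
    Mi K τ (fun t => g (t + j / K)) t = Mi K τ g (t + j / K) := by
  have hK := cast_pos_K (K := K)
  have h1 : (K : ℝ) * (t + j / K) = K * t + j := by field_simp
  simp only [Mi, h1, Int.floor_add_intCast, Int.fract_add_intCast]
  push_cast
  congr 2
  · ring
  · ring

theorem Mi_iter {q : ℕ} [NeZero q] (g : ℝ → M) (τ : ℝ) (t : ℝ) :
    Mi (q * K) τ (fun t => g (q * t)) t = Mi K τ g (q * t) := by
  have hK := cast_pos_K (K := K)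
  have hq := cast_pos_K (K := q)
  have h1 : ((q * K : ℕ) : ℝ) * t = K * (q * t) := by push_cast; ring
  have h2 : ∀ a : ℝ, (q : ℝ) * (a / ((q * K : ℕ) : ℝ)) = a / K := fun a => by
    push_cast; field_simp
  simp only [Mi, h1, h2]

/-- The homotopy stays close to `g`. -/
theorem dist_Mi_le {ρ : ℝ} (h : UniqSeg M ρ) (hρ : 0 < ρ) {g : ℝ → M}
    {C : ℝ} (hC : HasE g C) (hCK : C < K * ρ ^ 2) {τ : ℝ} (hτ : τ ∈ Icc (0 : ℝ) 1) (t : ℝ) :
    dist (Mi K τ g t) (g t) ≤ 2 * √(C * τ / K) := by
  have hK := cast_pos_K (K := K)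
  have hC0 := hC.nonneg
  obtain ⟨n, u, hu, rfl⟩ := exists_eq_div K t
  rw [Mi_apply g hτ n hu]
  rcases le_total τ u with h1 | h1
  · rcases hu.1.eq_or_lt with h2 | h2
    · have h3 : τ = 0 := le_antisymm (h1.trans h2.ge) hτ.1
      rw [← h2, h3]
      simp
    · rw [max_eq_left h1, div_self h2.ne', seg_one, dist_self]
      positivity
  · rw [max_eq_right h1]
    have hK1 : (1 : ℝ) ≤ K := by exact_mod_cast NeZero.pos K
    have key : ∀ v, 0 ≤ v → v ≤ τ → dist (g (n / K)) (g ((n + v) / K)) ≤ √(C * τ / K) := by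
      intro v hv0 hv
      apply Real.le_sqrt_of_sq_le
      have h2 : (n : ℝ) / K ≤ (n + v) / K := by gcongr; linarith
      have h3 : ((n : ℝ) + v) / K ≤ n / K + 1 := by
        rw [div_add' _ _ _ hK.ne', div_le_div_iff_of_pos_right hK]
        linarith [hτ.2]
      refine (hC.holder h2 h3).trans ?_
      have h4 : ((n : ℝ) + v) / K - n / K = v / K := by ring
      rw [h4]
      have : v / K * C ≤ τ / K * C := by gcongr
      refine this.trans (le_of_eq (by ring))
    have h4 := key τ hτ.1 le_rfl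
    have h5 := key u hu.1 h1
    have hlt : dist (g (n / K)) (g ((n + τ) / K)) < ρ := by
      refine h4.trans_lt ?_
      rw [Real.sqrt_lt' hρ, div_lt_iff₀ hK]
      have : C * τ ≤ C := mul_le_of_le_one_right hC0 hτ.2
      linarith
    rcases hτ.1.eq_or_lt with h6 | h6
    · have h7 : u = 0 := le_antisymm (h1.trans h6.ge) hu.1
      rw [h7, ← h6]
      simp
    have hut : u / τ ∈ Icc (0 : ℝ) 1 := ⟨div_nonneg hu.1 hτ.1, (div_le_one h6).2 h1⟩
    calc dist (seg (g (n / K)) (g ((n + τ) / K)) (u / τ)) (g ((n + u) / K))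
        ≤ dist (seg (g (n / K)) (g ((n + τ) / K)) (u / τ)) (g (n / K)) +
          dist (g (n / K)) (g ((n + u) / K)) := dist_triangle _ _ _
      _ ≤ √(C * τ / K) + √(C * τ / K) := by
          refine add_le_add ?_ h5
          rw [dist_comm, dist_left_seg h hlt hut]
          exact (mul_le_of_le_one_left dist_nonneg hut.2).trans h4
      _ = _ := by ring

end Milnor

end Vale.Agent.P216.LS
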