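import Vale.Agent.P216.GM.LR
import Vale.Agent.P216.H844.MilLoc
import Vale.Agent.P216.H494.CritLoop2

/-!
# Local ranks: loops and polygons (P216, Theorem A, (F3))

The local rank of the energy filtration of the loop space at a closed geodesic loop is bounded by
the local rank for the polygons with `K` vertices, as soon as the steps are short (there is no
relation between `K` and the energy), and conversely.
-/

open Set Filter Topology

namespace Vale.Agent.P216.LS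

open L250 H494 H844 GM

theorem dist_sampleL_le {M : Type*} [MetricSpace M] {K : ℕ} [NeZero K] (g g' : LM M) :
    dist (sampleL K g) (sampleL K g') ≤ dist g g' := by
  rw [dist_pi_le_iff dist_nonneg]
  exact fun i => dist_fn_le g g' _

theorem mem_nb_singleton {E : Type} [PseudoMetricSpace E] {p x : E} {r : ℝ} :
    x ∈ nb {p} r ↔ dist x p ≤ r := by
  rw [nb_singleton, Metric.mem_closedBall]

/-- A continuous family of maps on a compact set which fixes a point. -/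
theorem exists_small {E E' : Type} [PseudoMetricSpace E] [PseudoMetricSpace E'] {S : Set E}
    (hS : IsCompact S) {H : ℝ → E → E'}
    (hc : ContinuousOn (fun q : ℝ × E => H q.1 q.2) (Icc (0 : ℝ) 1 ×ˢ S)) {p : E} {p' : E'}
    (hp : p ∈ S) (hfix : ∀ u ∈ Icc (0 : ℝ) 1, H u p = p') {ε : ℝ} (hε : 0 < ε) :
    ∃ δ > 0, ∀ u ∈ Icc (0 : ℝ) 1, ∀ x ∈ S, dist x p ≤ δ → dist (H u x) p' ≤ ε := by
  obtain ⟨δ, hδ, h⟩ := Vale.Agent.P265.AS.uc_of_compact hS hc ε hε
  refine ⟨δ / 2, by positivity, fun u hu x hx hd => ?_⟩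
  have := h u hu u hu x hx p hp (by simpa using hδ) (by linarith)
  rw [hfix u hu] at this
  exact this.le

variable {M : Type} [MetricSpace M] {K : ℕ} [NeZero K] {ρ r a : ℝ}

/-- Loops close to a loop with short steps have short steps. -/
theorem sht_of_near {g : LM M} (hs : Sht K r (fn g)) (hr : r < ρ) {x : LM M}
    (hx : dist x g ≤ (ρ - r) / 4) : Sht K ((r + ρ) / 2) (fn x) :=
  Sht.near hs hx (by linarith)

theorem step_of_near {g : LM M} (hs : Sht K r (fn g)) (hr : r < ρ) {x : ZMod K → M}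
    (hx : dist x (sampleL K g) ≤ (ρ - r) / 4) (i : ZMod K) :
    dist (x i) (x (i + 1)) ≤ (r + ρ) / 2 := by
  have h1 := (dist_pi_le_iff (by linarith)).1 hx i
  have h2 := (dist_pi_le_iff (by linarith)).1 hx (i + 1)
  have h3 := hs.step (fn_periodic g) i
  rw [dist_comm] at h2
  calc dist (x i) (x (i + 1)) ≤ dist (x i) (sampleL K g i) +
        dist (sampleL K g i) (sampleL K g (i + 1)) + dist (sampleL K g (i + 1)) (x (i + 1)) :=
        dist_triangle4 _ _ _ _
    _ ≤ (ρ - r) / 4 + r + (ρ - r) / 4 := add_le_add (add_le_add h1 h3) h2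
    _ = (r + ρ) / 2 := by ring

section

variable [CompactSpace M] (h : UniqSeg M ρ) (hr : r < ρ) (ha : 0 < a) {g : LM M}
  (hg : g ∈ XE M a) (hfix : ∀ u ∈ Icc (0 : ℝ) 1, MiL K u g = g) (hs : Sht K r (fn g))
  {D : ℕ → ℕ}
include h hr ha hg hfix hs

/-- **(F3)**, loops from polygons. -/
theorem LR_loop_of_polygon
    (hLR : LR (fun s => Pl M K (max s 0)) a {sampleL K g} D) :
    LR (fun s => XE M (max s 0)) a {g} D := by
  have hrr : (r + ρ) / 2 < ρ := by linarith
  have hr₀ : 0 < (ρ - r) / 4 := by linarith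
  have ha2 : 0 ≤ a + a := by linarith
  have hmax : max (a + a) 0 = a + a := max_eq_left ha2
  have hcS : IsCompact (XS M K ((r + ρ) / 2) (a + a)) :=
    (isCompact_XE ha2).inter_right isClosed_Sht
  have hcP : IsCompact (PS M K ((r + ρ) / 2) (a + a)) := isClosed_PS.isCompact
  have hMi := continuousOn_MiL_loc (K := K) (s := a + a) h hrr ha2
  have hit := continuousOn_itpL_loc (K := K) (s := a + a) h hrr ha2
  have hgS : g ∈ XS M K ((r + ρ) / 2) (a + a) :=
    ⟨XE_mono ha.le (by linarith) hg, hs.mono (by linarith)⟩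
  have hxS : sampleL K g ∈ PS M K ((r + ρ) / 2) (a + a) := sampleL_mem_PS hgS
  have hitg : itpL (sampleL K g) = g := by
    rw [← MiL_one_loc h hrr hgS, hfix 1 ⟨zero_le_one, le_rfl⟩]
  have mS : ∀ s, |s - a| < a → ∀ x ∈ nb {g} ((ρ - r) / 4), x ∈ XE M (max s 0) →
      x ∈ XS M K ((r + ρ) / 2) (max s 0) := fun s _ x hx hxs =>
    ⟨hxs, sht_of_near hs hr (mem_nb_singleton.1 hx)⟩
  have mS' : ∀ x ∈ nb {g} ((ρ - r) / 4) ∩ XE M (max (a + a) 0),
      x ∈ XS M K ((r + ρ) / 2) (a + a) := fun x hx => by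
    have := hx.2
    rw [hmax] at this
    exact ⟨this, sht_of_near hs hr (mem_nb_singleton.1 hx.1)⟩
  have mP : ∀ s, |s - a| < a → ∀ x ∈ nb {sampleL K g} ((ρ - r) / 4), x ∈ Pl M K (max s 0) →
      x ∈ PS M K ((r + ρ) / 2) (max s 0) := fun s _ x hx hxs =>
    ⟨hxs, step_of_near hs hr (mem_nb_singleton.1 hx)⟩
  have mP' : ∀ x ∈ nb {sampleL K g} ((ρ - r) / 4) ∩ Pl M K (max (a + a) 0),
      x ∈ PS M K ((r + ρ) / 2) (a + a) := fun x hx => by
    have := hx.2
    rw [hmax] at this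
    exact ⟨this, step_of_near hs hr (mem_nb_singleton.1 hx.1)⟩
  refine hLR.of_maps (F := sampleL K) (G := itpL) (H := MiL K) (r₀ := (ρ - r) / 4) (e₁ := a)
    hr₀ ha ?_ ?_ ?_ ?_ ?_ ?_ ?_ ?_ ?_ ?_ ?_ ?_ ?_
  · exact fun s t hst => XE_mono (le_max_right _ _) (max_le_max_right _ hst)
  · exact fun s t hst x hx => le_trans hx
      (pow_le_pow_left₀ (le_max_right _ _) (max_le_max_right _ hst) 2)
  · exact fun s _ x _ hxs => sampleL_mem hxs
  · intro ε hε
    refine ⟨ε, hε, fun x hx _ => ?_⟩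
    rw [mem_nb_singleton] at hx ⊢
    exact (dist_sampleL_le _ _).trans hx
  · exact fun ε hε => ⟨ε, hε, fun x _ y _ hxy => (dist_sampleL_le _ _).trans_lt hxy⟩
  · exact fun s hsa x hx hxs => itpL_mem_loc h hrr (mP s hsa x hx hxs)
  · intro ε hε
    obtain ⟨δ, hδ, h1⟩ := exists_small hcP (H := fun _ x => itpL x) (p' := g)
      (hit.comp continuousOn_snd fun q hq => hq.2) hxS (fun _ _ => hitg) hε
    refine ⟨min δ ((ρ - r) / 4), lt_min hδ hr₀, fun x hx hxs => ?_⟩
    rw [mem_nb_singleton] at hx ⊢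
    refine h1 0 ⟨le_rfl, zero_le_one⟩ x (mP' x ⟨?_, hxs⟩) (hx.trans (min_le_left _ _))
    exact mem_nb_singleton.2 (hx.trans (min_le_right _ _))
  · intro ε hε
    obtain ⟨δ, hδ, h1⟩ := Vale.Agent.P265.AS.uc_of_compact' hcP hit ε hε
    exact ⟨δ, hδ, fun x hx y hy hxy => h1 x (mP' x hx) y (mP' y hy) hxy⟩
  · exact fun s hsa u hu x hx hxs => MiL_mem_loc h hrr (mS s hsa x hx hxs) hu
  · intro ε hε
    obtain ⟨δ, hδ, h1⟩ := exists_small hcS (H := MiL K) hMi hgS hfix hε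
    refine ⟨min δ ((ρ - r) / 4), lt_min hδ hr₀, fun u hu x hx hxs => ?_⟩
    rw [mem_nb_singleton] at hx ⊢
    refine h1 u hu x (mS' x ⟨?_, hxs⟩) (hx.trans (min_le_left _ _))
    exact mem_nb_singleton.2 (hx.trans (min_le_right _ _))
  · intro ε hε
    obtain ⟨δ, hδ, h1⟩ := Vale.Agent.P265.AS.uc_of_compact hcS hMi ε hε
    exact ⟨δ, hδ, fun u hu v hv x hx y hy huv hxy =>
      h1 u hu v hv x (mS' x hx) y (mS' y hy) huv hxy⟩
  · exact fun x _ => MiL_zero x
  · exact fun x hx => MiL_one_loc h hrr (mS' x hx)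

/-- **(F3)**, polygons from loops. -/
theorem LR_polygon_of_loop (hLR : LR (fun s => XE M (max s 0)) a {g} D) :
    LR (fun s => Pl M K (max s 0)) a {sampleL K g} D := by
  have hrr : (r + ρ) / 2 < ρ := by linarith
  have hr₀ : 0 < (ρ - r) / 4 := by linarith
  have ha2 : 0 ≤ a + a := by linarith
  have hmax : max (a + a) 0 = a + a := max_eq_left ha2
  have hcP : IsCompact (PS M K ((r + ρ) / 2) (a + a)) := isClosed_PS.isCompact
  have hit := continuousOn_itpL_loc (K := K) (s := a + a) h hrr ha2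
  have hgS : g ∈ XS M K ((r + ρ) / 2) (a + a) :=
    ⟨XE_mono ha.le (by linarith) hg, hs.mono (by linarith)⟩
  have hxS : sampleL K g ∈ PS M K ((r + ρ) / 2) (a + a) := sampleL_mem_PS hgS
  have hitg : itpL (sampleL K g) = g := by
    rw [← MiL_one_loc h hrr hgS, hfix 1 ⟨zero_le_one, le_rfl⟩]
  have mP : ∀ s, |s - a| < a → ∀ x ∈ nb {sampleL K g} ((ρ - r) / 4), x ∈ Pl M K (max s 0) →
      x ∈ PS M K ((r + ρ) / 2) (max s 0) := fun s _ x hx hxs =>
    ⟨hxs, step_of_near hs hr (mem_nb_singleton.1 hx)⟩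
  have mP' : ∀ x ∈ nb {sampleL K g} ((ρ - r) / 4) ∩ Pl M K (max (a + a) 0),
      x ∈ PS M K ((r + ρ) / 2) (a + a) := fun x hx => by
    have := hx.2
    rw [hmax] at this
    exact ⟨this, step_of_near hs hr (mem_nb_singleton.1 hx.1)⟩
  refine hLR.of_maps (F := itpL) (G := sampleL K) (H := fun _ x => x) (r₀ := (ρ - r) / 4)
    (e₁ := a) hr₀ ha ?_ ?_ ?_ ?_ ?_ ?_ ?_ ?_ ?_ ?_ ?_ ?_ ?_
  · exact fun s t hst x hx => le_trans hx
      (pow_le_pow_left₀ (le_max_right _ _) (max_le_max_right _ hst) 2)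
  · exact fun s t hst => XE_mono (le_max_right _ _) (max_le_max_right _ hst)
  · exact fun s hsa x hx hxs => itpL_mem_loc h hrr (mP s hsa x hx hxs)
  · intro ε hε
    obtain ⟨δ, hδ, h1⟩ := exists_small hcP (H := fun _ x => itpL x) (p' := g)
      (hit.comp continuousOn_snd fun q hq => hq.2) hxS (fun _ _ => hitg) hε
    refine ⟨min δ ((ρ - r) / 4), lt_min hδ hr₀, fun x hx hxs => ?_⟩
    rw [mem_nb_singleton] at hx ⊢
    refine h1 0 ⟨le_rfl, zero_le_one⟩ x (mP' x ⟨?_, hxs⟩) (hx.trans (min_le_left _ _))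
    exact mem_nb_singleton.2 (hx.trans (min_le_right _ _))
  · intro ε hε
    obtain ⟨δ, hδ, h1⟩ := Vale.Agent.P265.AS.uc_of_compact' hcP hit ε hε
    exact ⟨δ, hδ, fun x hx y hy hxy => h1 x (mP' x hx) y (mP' y hy) hxy⟩
  · exact fun s _ x _ hxs => sampleL_mem hxs
  · intro ε hε
    refine ⟨ε, hε, fun x hx _ => ?_⟩
    rw [mem_nb_singleton] at hx ⊢
    exact (dist_sampleL_le _ _).trans hx
  · exact fun ε hε => ⟨ε, hε, fun x _ y _ hxy => (dist_sampleL_le _ _).trans_lt hxy⟩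
  · exact fun s _ u _ x _ hxs => hxs
  · exact fun ε hε => ⟨ε, hε, fun u _ x hx _ => hx⟩
  · exact fun ε hε => ⟨ε, hε, fun u _ v _ x _ y _ _ hxy => hxy⟩
  · exact fun x _ => rfl
  · exact fun x hx => (sampleL_itpL_loc h fun i => ((mP' x hx).2 i).trans_lt hrr).symm

end

/-! ### Closed geodesic loops -/

section

variable {G : GeoList M} {e a : ℝ} {g : LM M} (he : e = 1 ∨ e = -1) (ha : 0 ≤ a)
  (hg : g ∈ G.KK e a)
include he ha hg

theorem sht_of_KK : Sht K (a / K) (fn g) := by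
  intro n v hv
  have hK := cast_pos_K (K := K)
  refine (KK_dist_le he ha hg _ _).trans ?_
  have h1 : |(n : ℝ) / K - (n + v) / K| = v / K := by
    rw [show (n : ℝ) / K - (n + v) / K = -(v / K) by ring, abs_neg,
      abs_of_nonneg (div_nonneg hv.1 hK.le)]
  rw [h1, ← mul_div_assoc]
  gcongr
  exact mul_le_of_le_one_right ha hv.2

theorem MiL_of_KK [CompactSpace M] (h : UniqSeg M ρ) {r : ℝ}
    (hr : ∀ j s t, |s - t| ≤ r → dist (G.c j s) (G.c j t) = |s - t|) (hK : a ≤ K * r)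
    (hKρ : a < K * ρ) {u : ℝ} (hu : u ∈ Icc (0 : ℝ) 1) : MiL K u g = g := by
  have hK' := cast_pos_K (K := K)
  have hlt : a / K < ρ := by rw [div_lt_iff₀ hK']; linarith
  refine ext_fn fun t => ?_
  rw [fn_MiL_loc h hlt ⟨KK_subset_XE he ha hg, sht_of_KK he ha hg⟩ hu,
    H494.Mi_eq_self he ha hg hr hK hKρ h hu]

end

/-- **(F3)** at a closed geodesic loop. -/
theorem LR_loop_of_polygon_KK [CompactSpace M] (h : UniqSeg M ρ) {G : GeoList M} {e a : ℝ}
    {g : LM M} (he : e = 1 ∨ e = -1) (ha : 0 < a) (hg : g ∈ G.KK e a) {r : ℝ}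
    (hr : ∀ j s t, |s - t| ≤ r → dist (G.c j s) (G.c j t) = |s - t|) (hK : a ≤ K * r)
    (hKρ : a < K * ρ) {D : ℕ → ℕ}
    (hLR : LR (fun s => Pl M K (max s 0)) a {sampleL K g} D) :
    LR (fun s => XE M (max s 0)) a {g} D := by
  have hK' := cast_pos_K (K := K)
  have hlt : a / K < ρ := by rw [div_lt_iff₀ hK']; linarith
  exact LR_loop_of_polygon h hlt ha (KK_subset_XE he ha.le hg)
    (fun u hu => MiL_of_KK he ha.le hg h hr hK hKρ hu) (sht_of_KK he ha.le hg) hLR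

/-- **(F3)** at a closed geodesic loop, the converse. -/
theorem LR_polygon_of_loop_KK [CompactSpace M] (h : UniqSeg M ρ) {G : GeoList M} {e a : ℝ}
    {g : LM M} (he : e = 1 ∨ e = -1) (ha : 0 < a) (hg : g ∈ G.KK e a) {r : ℝ}
    (hr : ∀ j s t, |s - t| ≤ r → dist (G.c j s) (G.c j t) = |s - t|) (hK : a ≤ K * r)
    (hKρ : a < K * ρ) {D : ℕ → ℕ}
    (hLR : LR (fun s => XE M (max s 0)) a {g} D) :
    LR (fun s => Pl M K (max s 0)) a {sampleL K g} D := by
  have hK' := cast_pos_K (K := K)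
  have hlt : a / K < ρ := by rw [div_lt_iff₀ hK']; linarith
  exact LR_polygon_of_loop h hlt ha (KK_subset_XE he ha.le hg)
    (fun u hu => MiL_of_KK he ha.le hg h hr hK hKρ hu) (sht_of_KK he ha.le hg) hLR

end Vale.Agent.P216.LS
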