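import Vale.Agent.P216.LS.Milnor
import Vale.Agent.P216.L250.Loop

/-!
# Sampling, interpolation and the Milnor homotopy on the loop space (P216, Theorem A)
-/

open Set Filter Topology

namespace Vale.Agent.P216.LS

open L250

variable {M : Type*} [MetricSpace M]

/-! ## Continuity into `XE M s` is pointwise -/

theorem continuousOn_of_pointwise {T : Type*} [TopologicalSpace T] {S : Set T} {F : T → LM M}
    {s : ℝ} (h0 : 0 ≤ s) (hF : ∀ a ∈ S, F a ∈ XE M s)
    (h : ∀ t, ContinuousOn (fun a => fn (F a) t) S) : ContinuousOn F S := by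
  intro a₀ ha₀
  rw [ContinuousWithinAt, Metric.tendsto_nhds]
  intro ε hε
  have hmod := (tendsto_modulus s).comp (tendsto_one_div_atTop_nhds_zero_nat)
  obtain ⟨N, hN⟩ := ((hmod.eventually (gt_mem_nhds (show (0 : ℝ) < ε / 4 by positivity))).and
    (eventually_gt_atTop 0)).exists
  obtain ⟨hN1, hN2⟩ := hN
  simp only [Function.comp_apply] at hN1
  have hN0 : (0 : ℝ) < N := Nat.cast_pos.2 hN2
  have h1 : ∀ᶠ a in 𝓝[S] a₀, ∀ j ∈ Finset.range N,
      dist (fn (F a) (j / N)) (fn (F a₀) (j / N)) < ε / 4 := by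
    rw [Filter.eventually_all_finset]
    intro j _
    exact Metric.tendsto_nhds.1 (h (j / N) a₀ ha₀) (ε / 4) (by positivity)
  filter_upwards [h1, self_mem_nhdsWithin] with a ha haS
  refine lt_of_le_of_lt (b := 3 * (ε / 4)) ?_ (by linarith)
  refine dist_le_of_Ico (by positivity) fun t ht => ?_
  have ht0 : 0 ≤ (N : ℝ) * t := mul_nonneg hN0.le ht.1
  set j := ⌊(N : ℝ) * t⌋₊ with hj
  have hjN : j < N := by
    rw [hj, Nat.floor_lt ht0]
    calc (N : ℝ) * t < N * 1 := by gcongr; exact ht.2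
      _ = N := mul_one _
  have hj1 : (j : ℝ) / N ≤ t := by
    rw [div_le_iff₀ hN0, mul_comm]
    exact Nat.floor_le ht0
  have hj2 : t - j / N ≤ 1 / N := by
    have := Nat.lt_floor_add_one ((N : ℝ) * t)
    rw [← hj] at this
    have h3 : t ≤ (j + 1) / N := by
      rw [le_div_iff₀ hN0, mul_comm]; exact this.le
    have h4 : ((j : ℝ) + 1) / N = j / N + 1 / N := by ring
    linarith
  have key : ∀ g ∈ XE M s, dist (fn g t) (fn g (j / N)) ≤ ε / 4 := by
    intro g hg
    refine (dist_fn_le_of_mem hg h0 _ _).trans (le_trans ?_ hN1.le)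
    apply mul_le_mul_of_nonneg_left _ h0
    apply Real.sqrt_le_sqrt
    rw [abs_of_nonneg (by linarith)]
    exact hj2
  calc dist (fn (F a) t) (fn (F a₀) t) ≤ dist (fn (F a) t) (fn (F a) (j / N)) +
        dist (fn (F a) (j / N)) (fn (F a₀) (j / N)) + dist (fn (F a₀) (j / N)) (fn (F a₀) t) :=
        dist_triangle4 _ _ _ _
    _ ≤ ε / 4 + ε / 4 + ε / 4 := by
        refine add_le_add (add_le_add (key _ (hF a haS)) (ha j (Finset.mem_range.2 hjN)).le) ?_
        rw [dist_comm]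
        exact key _ (hF a₀ ha₀)
    _ = 3 * (ε / 4) := by ring

theorem continuous_fn_apply : Continuous (fun p : LM M × ℝ => fn p.1 p.2) := by
  have h1 : Continuous (fun p : LM M × ℝ => (p.1, (p.2 : AddCircle (1 : ℝ)))) :=
    continuous_fst.prodMk ((AddCircle.continuous_mk' 1).comp continuous_snd)
  exact (continuous_eval.comp h1 : Continuous fun p : LM M × ℝ => p.1 (p.2 : AddCircle (1 : ℝ)))

theorem continuous_fn_left (t : ℝ) : Continuous (fun g : LM M => fn g t) :=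
  continuous_fn_apply.comp (continuous_id.prodMk continuous_const)

/-- A 1-periodic function of finite energy is continuous. -/
theorem HasE.continuous' {g : ℝ → M} {C : ℝ} (h : HasE g C) : Continuous g := by
  rw [continuous_iff_continuousAt]
  intro t
  rw [ContinuousAt, tendsto_iff_dist_tendsto_zero]
  have hC := h.nonneg
  have key : ∀ᶠ s in 𝓝 t, dist (g s) (g t) ≤ √(|s - t| * C) := by
    filter_upwards [Metric.ball_mem_nhds t one_pos] with s hs
    rw [Metric.mem_ball, Real.dist_eq] at hs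
    apply Real.le_sqrt_of_sq_le
    rcases le_total s t with h1 | h1
    · have := h.holder h1 (by rw [abs_of_nonpos (by linarith)] at hs; linarith)
      rwa [abs_of_nonpos (by linarith), neg_sub]
    · have := h.holder h1 (by rw [abs_of_nonneg (by linarith)] at hs; linarith)
      rwa [abs_of_nonneg (by linarith), dist_comm]
  have h2 : Tendsto (fun s => √(|s - t| * C)) (𝓝 t) (𝓝 0) := by
    have : Continuous fun s => √(|s - t| * C) := by fun_prop
    have h3 := this.tendsto t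
    simpa using h3
  exact squeeze_zero' (Eventually.of_forall fun _ => dist_nonneg) key h2

/-! ## The maps -/

section

variable (K : ℕ) [NeZero K]

/-- Sampling at the multiples of `1 / K`. -/
noncomputable def sampleL (g : LM M) : ZMod K → M := sample K (fn g)

open Classical in
/-- The Milnor homotopy on the loop space. -/
noncomputable def MiL (τ : ℝ) (g : LM M) : LM M :=
  if h : Continuous (Mi K τ (fn g)) then ofFn _ h (Mi_periodic (fn_periodic g) τ) else g

end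

variable {K : ℕ} [NeZero K]

open Classical in
/-- The broken geodesic loop through the vertices of a polygon. -/
noncomputable def itpL (x : ZMod K → M) : LM M :=
  if h : Continuous (itp x) then ofFn _ h (itp_periodic x)
  else ofFn (fun _ => x 0) continuous_const fun _ => rfl

variable {ρ : ℝ} {s s' : ℝ}

theorem fn_MiL (h : UniqSeg M ρ) (hρ : 0 < ρ) (hs : s ^ 2 < K * ρ ^ 2) {g : LM M}
    (hg : g ∈ XE M s) {τ : ℝ} (hτ : τ ∈ Icc (0 : ℝ) 1) (t : ℝ) :
    fn (MiL K τ g) t = Mi K τ (fn g) t := by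
  have h1 := HasE.continuous' (hasE_Mi h hρ (fn_periodic g) hg hs hτ)
  rw [MiL, dif_pos h1, fn_ofFn]

theorem MiL_mem (h : UniqSeg M ρ) (hρ : 0 < ρ) (hs : s ^ 2 < K * ρ ^ 2) {g : LM M}
    (hg : g ∈ XE M s) {τ : ℝ} (hτ : τ ∈ Icc (0 : ℝ) 1) : MiL K τ g ∈ XE M s := by
  have h1 : fn (MiL K τ g) = Mi K τ (fn g) := funext (fn_MiL h hρ hs hg hτ)
  rw [mem_XE, h1]
  exact hasE_Mi h hρ (fn_periodic g) hg hs hτ

theorem MiL_zero (g : LM M) : MiL K 0 g = g := by
  have h1 : Continuous (Mi K 0 (fn g)) := by rw [Mi_zero]; exact continuous_fn g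
  rw [MiL, dif_pos h1]
  exact ext_fn fun t => by rw [fn_ofFn, Mi_zero]

theorem fn_itpL (h : UniqSeg M ρ) (hρ : 0 < ρ) {x : ZMod K → M} (hx : E x < K * ρ ^ 2) (t : ℝ) :
    fn (itpL x) t = itp x t := by
  have h1 := HasE.continuous' (hasE_itp' h hρ hx)
  rw [itpL, dif_pos h1, fn_ofFn]

theorem itpL_mem (h : UniqSeg M ρ) (hρ : 0 < ρ) {x : ZMod K → M} (hs : s ^ 2 < K * ρ ^ 2)
    (hx : x ∈ Pl M K s) : itpL x ∈ XE M s := by
  have h1 : fn (itpL x) = itp x := funext (fn_itpL h hρ (lt_of_le_of_lt hx hs))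
  rw [mem_XE, h1]
  exact (hasE_itp' h hρ (lt_of_le_of_lt hx hs)).mono hx

theorem sampleL_mem {g : LM M} (hg : g ∈ XE M s) : sampleL K g ∈ Pl M K s :=
  E_sample_le (fn_periodic g) hg

theorem sampleL_itpL (h : UniqSeg M ρ) (hρ : 0 < ρ) {x : ZMod K → M} (hx : E x < K * ρ ^ 2) :
    sampleL K (itpL x) = x := by
  have h1 : fn (itpL x) = itp x := funext (fn_itpL h hρ hx)
  rw [sampleL, h1, sample_itp]

theorem MiL_one (h : UniqSeg M ρ) (hρ : 0 < ρ) (hs : s ^ 2 < K * ρ ^ 2) {g : LM M}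
    (hg : g ∈ XE M s) : MiL K 1 g = itpL (sampleL K g) := by
  refine ext_fn fun t => ?_
  rw [fn_MiL h hρ hs hg ⟨zero_le_one, le_rfl⟩, Mi_one (fn_periodic g),
    fn_itpL h hρ (lt_of_le_of_lt (sampleL_mem hg) hs), sampleL]

/-! ## Continuity -/

omit [NeZero K] in
theorem continuous_sampleL : Continuous (sampleL K : LM M → ZMod K → M) :=
  continuous_pi fun _ => continuous_fn_left _

theorem continuousOn_itpL [CompactSpace M] (h : UniqSeg M ρ) (hρ : 0 < ρ) (h0 : 0 ≤ s)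
    (hs : s ^ 2 < K * ρ ^ 2) : ContinuousOn (itpL : (ZMod K → M) → LM M) (Pl M K s) := by
  refine continuousOn_of_pointwise h0 (fun x hx => itpL_mem h hρ hs hx) fun t => ?_
  obtain ⟨n, u, hu, rfl⟩ := exists_eq_div K t
  have h1 : ContinuousOn (fun x : ZMod K → M => seg (x n) (x (n + 1)) u) (Pl M K s) :=
    ContinuousOn.seg h (continuous_apply _).continuousOn (continuous_apply _).continuousOn
      continuousOn_const (fun x hx => step_lt hρ (lt_of_le_of_lt hx hs) _) fun _ _ => hu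
  refine h1.congr fun x hx => ?_
  rw [fn_itpL h hρ (lt_of_le_of_lt hx hs), itp_apply x n hu]

theorem dist_step_lt (hρ : 0 < ρ) (hs : s ^ 2 < K * ρ ^ 2) {g : LM M}
    (hg : g ∈ XE M s) (n : ℤ) {v : ℝ} (hv : v ∈ Icc (0 : ℝ) 1) :
    dist (fn g (n / K)) (fn g ((n + v) / K)) < ρ := by
  have hK := cast_pos_K (K := K)
  have hK1 : (1 : ℝ) ≤ K := by exact_mod_cast NeZero.pos K
  have h2 : (n : ℝ) / K ≤ (n + v) / K := by gcongr; linarith [hv.1]
  have h3 : ((n : ℝ) + v) / K ≤ n / K + 1 := by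
    rw [div_add' _ _ _ hK.ne', div_le_div_iff_of_pos_right hK]
    linarith [hv.2]
  have h4 := HasE.holder hg h2 h3
  have h5 : ((n : ℝ) + v) / K - n / K = v / K := by ring
  rw [h5] at h4
  have h6 : v / K * s ^ 2 ≤ 1 / K * s ^ 2 := by gcongr; exact hv.2
  have h7 : (1 : ℝ) / K * s ^ 2 < ρ ^ 2 := by rw [one_div, inv_mul_lt_iff₀ hK]; exact hs
  exact lt_of_pow_lt_pow_left₀ 2 hρ.le (h4.trans_lt (h6.trans_lt h7))

theorem continuousOn_MiL [CompactSpace M] (h : UniqSeg M ρ) (hρ : 0 < ρ) (h0 : 0 ≤ s)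
    (hs : s ^ 2 < K * ρ ^ 2) :
    ContinuousOn (fun p : ℝ × LM M => MiL K p.1 p.2) (Icc (0 : ℝ) 1 ×ˢ XE M s) := by
  refine continuousOn_of_pointwise h0 (fun p hp => MiL_mem h hρ hs hp.2 hp.1) fun t => ?_
  obtain ⟨n, u, hu, rfl⟩ := exists_eq_div K t
  have hK := cast_pos_K (K := K)
  have key : ContinuousOn (fun p : ℝ × LM M =>
      seg (fn p.2 (n / K)) (fn p.2 ((n + max u p.1) / K)) (u / max u p.1))
      (Icc (0 : ℝ) 1 ×ˢ XE M s) := by
    rcases hu.1.eq_or_lt with h1 | h1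
    · have h2 : ∀ p : ℝ × LM M, seg (fn p.2 ((n : ℝ) / K)) (fn p.2 ((n + max u p.1) / K))
          (u / max u p.1) = fn p.2 ((n : ℝ) / K) := by
        intro p
        rw [← h1, zero_div, seg_zero]
      simp only [h2]
      exact ((continuous_fn_left _).comp continuous_snd).continuousOn
    · have hpos : ∀ p : ℝ × LM M, 0 < max u p.1 := fun p => lt_max_of_lt_left h1
      refine ContinuousOn.seg h ((continuous_fn_left _).comp continuous_snd).continuousOn
        (Continuous.continuousOn ?_) (Continuous.continuousOn ?_) (fun p hp => ?_) fun p _ => ?_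
      · exact continuous_fn_apply.comp (continuous_snd.prodMk (by fun_prop))
      · exact continuous_const.div (by fun_prop) fun p => (hpos p).ne'
      · exact dist_step_lt hρ hs hp.2 n ⟨(hpos p).le, max_le hu.2 hp.1.2⟩
      · exact ⟨div_nonneg hu.1 (hpos p).le, (div_le_one (hpos p)).2 (le_max_left _ _)⟩
  refine key.congr fun p hp => ?_
  rw [fn_MiL h hρ hs hp.2 hp.1, Mi_apply _ hp.1 n hu]

theorem dist_MiL_le (h : UniqSeg M ρ) (hρ : 0 < ρ) (hs : s ^ 2 < K * ρ ^ 2) {g : LM M}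
    (hg : g ∈ XE M s) {τ : ℝ} (hτ : τ ∈ Icc (0 : ℝ) 1) :
    dist (MiL K τ g) g ≤ 2 * √(s ^ 2 * τ / K) := by
  rw [dist_le_iff (by positivity)]
  intro t
  rw [fn_MiL h hρ hs hg hτ]
  exact dist_Mi_le h hρ hg hs hτ t

/-! ## Symmetries -/

theorem MiL_rot (h : UniqSeg M ρ) (hρ : 0 < ρ) (hs : s ^ 2 < K * ρ ^ 2) {g : LM M}
    (hg : g ∈ XE M s) {τ : ℝ} (hτ : τ ∈ Icc (0 : ℝ) 1) (j : ℤ) :
    MiL K τ (rot (j / K) g) = rot (j / K) (MiL K τ g) := by
  refine ext_fn fun t => ?_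
  rw [fn_MiL h hρ hs (rot_mem hg _) hτ, fn_rot, fn_MiL h hρ hs hg hτ, ← Mi_rot]
  congr 1

theorem MiL_iter {q : ℕ} [NeZero q] (h : UniqSeg M ρ) (hρ : 0 < ρ) (hs : s ^ 2 < K * ρ ^ 2)
    (hs' : (q * s) ^ 2 < (q * K : ℕ) * ρ ^ 2) {g : LM M}
    (hg : g ∈ XE M s) {τ : ℝ} (hτ : τ ∈ Icc (0 : ℝ) 1) :
    MiL (q * K) τ (iter q g) = iter q (MiL K τ g) := by
  refine ext_fn fun t => ?_
  rw [fn_MiL h hρ hs' (iter_mem hg q) hτ, fn_iter, fn_MiL h hρ hs hg hτ, ← Mi_iter]
  congr 1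
  ext t
  rw [fn_iter]

theorem sampleL_rot (g : LM M) (j : ℤ) :
    sampleL K (rot (j / K) g) = pshift (j : ZMod K) (sampleL K g) := by
  have h1 : fn (rot (j / K) g) = fun t => fn g (t + j / K) := funext fun t => fn_rot _ _ _
  rw [sampleL, h1, sample_rot (fn_periodic g)]
  rfl

theorem sampleL_rev (g : LM M) : sampleL K (L250.rev g) = prev (sampleL K g) := by
  have h1 : fn (L250.rev g) = fun t => fn g (-t) := funext fun t => fn_rev _ _
  rw [sampleL, h1, sample_rev (fn_periodic g)]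
  rfl

theorem sampleL_iter {q : ℕ} [NeZero q] (g : LM M) :
    sampleL (q * K) (iter q g) = prep q (sampleL K g) := by
  have h1 : fn (iter q g) = fun t => fn g (q * t) := funext fun t => fn_iter _ _ _
  rw [sampleL, h1, sample_iter (fn_periodic g)]
  rfl

theorem itpL_pshift (h : UniqSeg M ρ) (hρ : 0 < ρ) {x : ZMod K → M} (hx : E x < K * ρ ^ 2)
    (j : ℤ) : itpL (pshift (j : ZMod K) x) = rot (j / K) (itpL x) := by
  refine ext_fn fun t => ?_
  rw [fn_itpL h hρ (by rwa [E_pshift]), itp_pshift, fn_rot, fn_itpL h hρ hx]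

theorem itpL_prev (h : UniqSeg M ρ) (hρ : 0 < ρ) {x : ZMod K → M} (hx : E x < K * ρ ^ 2) :
    itpL (prev x) = L250.rev (itpL x) := by
  refine ext_fn fun t => ?_
  rw [fn_itpL h hρ (by rwa [E_prev]), itp_prev h (fun i => step_lt hρ hx i), fn_rev,
    fn_itpL h hρ hx]

theorem itpL_prep {q : ℕ} [NeZero q] (h : UniqSeg M ρ) (hρ : 0 < ρ) {x : ZMod K → M}
    (hx : E x < K * ρ ^ 2) (hx' : q ^ 2 * E x < (q * K : ℕ) * ρ ^ 2) :
    itpL (prep q x) = iter q (itpL x) := by
  refine ext_fn fun t => ?_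
  rw [fn_itpL h hρ (by rwa [E_prep]), itp_prep, fn_iter, fn_itpL h hρ hx]

end Vale.Agent.P216.LS
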