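import Vale.Agent.P216.LS.Equal
import Vale.Agent.P216.H494.Adapter

/-!
# The descent on the loop space (P216, Theorem A, (D4))

`De S K u g`: Milnor homotopy to the broken geodesic for `u ≤ 1 / 2`, then the polygon shortening.
-/

open Set Filter Topology

namespace Vale.Agent.P216.LS

open L250 H494

variable {M : Type*} [MetricSpace M]

/-- The energy bound is closed in the constant. -/
theorem hasE_of_forall_gt {g : ℝ → M} {C : ℝ} (h : ∀ n : ℕ, HasE g (C + 1 / (n + 1))) :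
    HasE g C := by
  choose e he using fun n => (h n).cert
  have hadd : ∀ n (m : ℤ) t, e n (t + m) = e n t + m * (C + 1 / (n + 1)) := by
    intro n m t
    have h1 := (he n).2.2
    induction m using Int.induction_on generalizing t with
    | zero => simp
    | succ m ih =>
      have := ih t
      push_cast at this ⊢
      rw [← add_assoc, h1, this]
      ring
    | pred m ih =>
      have h2 := h1 (t + (-(m : ℤ) - 1 : ℤ))
      have h3 := ih t
      push_cast at h2 h3 ⊢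
      have h4 : t + (-(m : ℝ) - 1) + 1 = t + -(m : ℝ) := by ring
      rw [h4, h3] at h2
      linarith
  have hbd : ∀ n t, e n t ∈ Icc (-((|⌊t⌋| + 1 : ℤ) * (|C| + 1)) : ℝ) ((|⌊t⌋| + 1 : ℤ) * (|C| + 1)) := by
    intro n t
    have h0 := (he n).1
    have h1 := hadd n ⌊t⌋ 0
    have h2 := hadd n (⌊t⌋ + 1) 0
    rw [zero_add, h0, zero_add] at h1 h2
    have m1 := ((he n).2.1 (⌊t⌋ : ℝ) t).mono_fun le_rfl (Int.floor_le t) le_rfl
    have m2 := ((he n).2.1 t ((⌊t⌋ + 1 : ℤ) : ℝ)).mono_fun le_rfl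
      (by push_cast; exact (Int.lt_floor_add_one t).le) le_rfl
    rw [h1] at m1
    rw [h2] at m2
    have hc : |C + 1 / (n + 1 : ℝ)| ≤ |C| + 1 := by
      refine (abs_add_le _ _).trans (add_le_add le_rfl ?_)
      rw [abs_of_nonneg (by positivity), div_le_one (by positivity)]
      have : (0 : ℝ) ≤ n := Nat.cast_nonneg n
      linarith
    have hC0 : 0 ≤ |C| + 1 := by positivity
    have k1 : |((⌊t⌋ : ℤ) : ℝ) * (C + 1 / (n + 1))| ≤ (|⌊t⌋| + 1 : ℤ) * (|C| + 1) := by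
      rw [abs_mul]
      apply mul_le_mul _ hc (abs_nonneg _) (by positivity)
      push_cast
      linarith
    have k2 : |(((⌊t⌋ + 1 : ℤ)) : ℝ) * (C + 1 / (n + 1))| ≤ (|⌊t⌋| + 1 : ℤ) * (|C| + 1) := by
      rw [abs_mul]
      apply mul_le_mul _ hc (abs_nonneg _) (by positivity)
      push_cast
      exact (abs_add_le _ _).trans (by simp)
    exact ⟨(abs_le.1 k1).1.trans m1, m2.trans (abs_le.1 k2).2⟩
  let u : Ultrafilter ℕ := Filter.hyperfilter ℕ
  have hu : (u : Filter ℕ) ≤ atTop := Nat.cofinite_eq_atTop ▸ Filter.hyperfilter_le_cofinite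
  have hlim : ∀ t, ∃ y, Tendsto (fun n => e n t) (u : Filter ℕ) (𝓝 y) := by
    intro t
    obtain ⟨y, _, hy⟩ := (isCompact_Icc (a := (-((|⌊t⌋| + 1 : ℤ) * (|C| + 1)) : ℝ))
      (b := (|⌊t⌋| + 1 : ℤ) * (|C| + 1))).ultrafilter_le_nhds
      (u.map fun n : ℕ => e n t) (le_principal_iff.2 (Filter.mem_map.2 (Eventually.of_forall fun n => hbd n t)))
    exact ⟨y, hy⟩
  choose E' hE using hlim
  refine ⟨E', fun s t hst => ?_, fun t => ?_⟩
  · refine ge_of_tendsto (((hE t).sub (hE s)).const_mul (t - s)) (Eventually.of_forall fun n => ?_)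
    exact (he n).2.1 s t s t le_rfl hst le_rfl
  · have h1 : Tendsto (fun n : ℕ => e n t + (C + 1 / ((n : ℝ) + 1))) (u : Filter ℕ)
        (𝓝 (E' t + (C + 0))) :=
      (hE t).add (tendsto_const_nhds.add
        (tendsto_one_div_add_atTop_nhds_zero_nat.mono_left hu))
    have h2 : Tendsto (fun n : ℕ => e n t + (C + 1 / ((n : ℝ) + 1))) (u : Filter ℕ)
        (𝓝 (E' (t + 1))) := by
      refine (hE (t + 1)).congr fun n => ?_
      exact (he n).2.2 t
    rw [add_zero] at h1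
    exact tendsto_nhds_unique h2 h1

theorem mem_XE_of_forall {a : ℝ} {g : LM M} (ha : 0 ≤ a)
    (h : ∀ ε > 0, g ∈ XE M (a + ε)) : g ∈ XE M a := by
  rw [mem_XE]
  refine hasE_of_forall_gt fun n => ?_
  have hpos : (0 : ℝ) < 1 / (n + 1) := by positivity
  have h1 : a ^ 2 < a ^ 2 + 1 / (n + 1) := by linarith
  have h2 := h (√(a ^ 2 + 1 / (n + 1)) - a) (by
    rw [gt_iff_lt, sub_pos]
    exact (Real.lt_sqrt ha).2 h1)
  rw [mem_XE, add_sub_cancel, Real.sq_sqrt (by positivity)] at h2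
  exact h2

variable {K : ℕ} [NeZero K] {ρ : ℝ}

theorem E_eq (x : ZMod K → M) : E x = K * en x := rfl

theorem prev_eq (x : ZMod K → M) : prev x = H494.rev x := rfl

theorem pshift_eq (j : ZMod K) (x : ZMod K → M) : pshift j x = shift j x := rfl

/-- The descent. -/
noncomputable def De (S : Segs M) (K : ℕ) [NeZero K] (u : ℝ) (g : LM M) : LM M :=
  if u ≤ 1 / 2 then MiL K (2 * u) g else itpL (S.H (2 * u - 1) (sampleL K g))

section

variable [CompactSpace M] (hρ : 0 < ρ) (h : UniqSeg M ρ) {s T : ℝ}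

theorem steps {x : ZMod K → M} (hs : s ^ 2 < K * ρ ^ 2) (hx : x ∈ Pl M K s) (i : ZMod K) :
    dist (x i) (x (i + 1)) < (Segs.ofUniqSeg hρ h).ρ := step_lt hρ (lt_of_le_of_lt hx hs) i

theorem H_mem_Pl (hs : s ^ 2 < K * ρ ^ 2) {x : ZMod K → M} (hx : x ∈ Pl M K s) {τ : ℝ}
    (hτ : τ ∈ Icc (0 : ℝ) 1) : (Segs.ofUniqSeg hρ h).H τ x ∈ Pl M K s := by
  have h1 := en_H_le (steps hρ h hs hx) hτ
  exact le_trans (mul_le_mul_of_nonneg_left h1 cast_pos_K.le) hx

theorem continuousOn_H_Pl (hs : s ^ 2 < K * ρ ^ 2) :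
    ContinuousOn (fun p : ℝ × (ZMod K → M) => (Segs.ofUniqSeg hρ h).H p.1 p.2)
      (Icc (0 : ℝ) 1 ×ˢ Pl M K s) :=
  continuousOn_H.mono fun p hp => ⟨hp.1, steps hρ h hs hp.2⟩

theorem De_of_le {u : ℝ} (hu : u ≤ 1 / 2) (g : LM M) :
    De (Segs.ofUniqSeg hρ h) K u g = MiL K (2 * u) g := if_pos hu

theorem De_of_ge (hs : s ^ 2 < K * ρ ^ 2) {u : ℝ} (hu : 1 / 2 ≤ u) {g : LM M} (hg : g ∈ XE M s) :
    De (Segs.ofUniqSeg hρ h) K u g =
      itpL ((Segs.ofUniqSeg hρ h).H (2 * u - 1) (sampleL K g)) := by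
  rcases hu.eq_or_lt with h1 | h1
  · subst h1
    rw [De_of_le hρ h le_rfl, show (2 : ℝ) * (1 / 2) - 1 = 0 by norm_num,
      H_zero (steps hρ h hs (sampleL_mem hg)), show (2 : ℝ) * (1 / 2) = 1 by norm_num]
    exact MiL_one h hρ hs hg
  · exact if_neg (not_le.2 h1)

theorem De_zero (g : LM M) : De (Segs.ofUniqSeg hρ h) K 0 g = g := by
  rw [De_of_le hρ h (by norm_num), mul_zero, MiL_zero]

theorem De_one (hs : s ^ 2 < K * ρ ^ 2) {g : LM M} (hg : g ∈ XE M s) :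
    De (Segs.ofUniqSeg hρ h) K 1 g = itpL ((Segs.ofUniqSeg hρ h).H 1 (sampleL K g)) := by
  rw [De_of_ge hρ h hs (by norm_num) hg]
  norm_num

theorem De_mem (hs : s ^ 2 < K * ρ ^ 2) {g : LM M} (hg : g ∈ XE M s) {u : ℝ}
    (hu : u ∈ Icc (0 : ℝ) 1) : De (Segs.ofUniqSeg hρ h) K u g ∈ XE M s := by
  rcases le_total u (1 / 2) with h1 | h1
  · rw [De_of_le hρ h h1]
    exact MiL_mem h hρ hs hg ⟨by linarith [hu.1], by linarith⟩
  · rw [De_of_ge hρ h hs h1 hg]
    exact itpL_mem h hρ hs (H_mem_Pl hρ h hs (sampleL_mem hg) ⟨by linarith, by linarith [hu.2]⟩)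

theorem continuousOn_De (h0 : 0 ≤ s) (hs : s ^ 2 < K * ρ ^ 2) :
    ContinuousOn (fun p : ℝ × LM M => De (Segs.ofUniqSeg hρ h) K p.1 p.2)
      (Icc (0 : ℝ) 1 ×ˢ XE M s) := by
  have hunion : Icc (0 : ℝ) 1 ×ˢ XE M s =
      (Icc (0 : ℝ) (1 / 2) ×ˢ XE M s) ∪ (Icc (1 / 2 : ℝ) 1 ×ˢ XE M s) := by
    rw [← union_prod, Icc_union_Icc_eq_Icc (by norm_num) (by norm_num)]
  rw [hunion]
  apply ContinuousOn.union_of_isClosed _ _ (isClosed_Icc.prod isClosed_XE)
    (isClosed_Icc.prod isClosed_XE)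
  · have h1 : ContinuousOn (fun p : ℝ × LM M => MiL K (2 * p.1) p.2)
        (Icc (0 : ℝ) (1 / 2) ×ˢ XE M s) :=
      (continuousOn_MiL h hρ h0 hs).comp (f := fun p : ℝ × LM M => (2 * p.1, p.2))
        (by fun_prop) fun p hp =>
          ⟨⟨by linarith [hp.1.1], by linarith [hp.1.2]⟩, hp.2⟩
    exact h1.congr fun p hp => De_of_le hρ h hp.1.2 p.2
  · have h1 : ContinuousOn (fun p : ℝ × LM M =>
        (Segs.ofUniqSeg hρ h).H (2 * p.1 - 1) (sampleL K p.2)) (Icc (1 / 2 : ℝ) 1 ×ˢ XE M s) :=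
      (continuousOn_H_Pl hρ h hs).comp
        (f := fun p : ℝ × LM M => (2 * p.1 - 1, sampleL K p.2))
        (Continuous.continuousOn (by
          exact (by fun_prop : Continuous fun p : ℝ × LM M => 2 * p.1 - 1).prodMk
            (continuous_sampleL.comp continuous_snd))) fun p hp =>
          ⟨⟨by linarith [hp.1.1], by linarith [hp.1.2]⟩, sampleL_mem hp.2⟩
    have h2 : ContinuousOn (fun p : ℝ × LM M =>
        itpL ((Segs.ofUniqSeg hρ h).H (2 * p.1 - 1) (sampleL K p.2)))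
        (Icc (1 / 2 : ℝ) 1 ×ˢ XE M s) :=
      (continuousOn_itpL h hρ h0 hs).comp h1 fun p hp =>
        H_mem_Pl hρ h hs (sampleL_mem hp.2) ⟨by linarith [hp.1.1], by linarith [hp.1.2]⟩
    exact h2.congr fun p hp => De_of_ge hρ h hs hp.1.1 hp.2

/-! ### Symmetries -/

theorem De_rot (hs : s ^ 2 < K * ρ ^ 2) {g : LM M} (hg : g ∈ XE M s) {u : ℝ}
    (hu : u ∈ Icc (0 : ℝ) 1) (j : ℤ) : De (Segs.ofUniqSeg hρ h) K u (rot (j / K) g) =
      rot (j / K) (De (Segs.ofUniqSeg hρ h) K u g) := by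
  rcases le_total u (1 / 2) with h1 | h1
  · rw [De_of_le hρ h h1, De_of_le hρ h h1]
    exact MiL_rot h hρ hs hg ⟨by linarith [hu.1], by linarith⟩ j
  · rw [De_of_ge hρ h hs h1 hg, De_of_ge hρ h hs h1 (rot_mem hg _), sampleL_rot, pshift_eq,
      H_shift, ← pshift_eq]
    exact itpL_pshift h hρ (lt_of_le_of_lt
      (H_mem_Pl hρ h hs (sampleL_mem hg) ⟨by linarith, by linarith [hu.2]⟩) hs) j

theorem De_rot_inv {p : ℕ} (hp : p ∣ K) (hs : s ^ 2 < K * ρ ^ 2) {g : LM M} (hg : g ∈ XE M s)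
    {u : ℝ} (hu : u ∈ Icc (0 : ℝ) 1) : De (Segs.ofUniqSeg hρ h) K u (rot (1 / p) g) =
      rot (1 / p) (De (Segs.ofUniqSeg hρ h) K u g) := by
  obtain ⟨q, hq⟩ := hp
  have hK := cast_pos_K (K := K)
  have h1 : (1 : ℝ) / p = ((q : ℤ) : ℝ) / K := by
    have h2 : (K : ℝ) = p * q := by exact_mod_cast hq
    have hp0 : (p : ℝ) ≠ 0 := by rintro h0; rw [h2, h0, zero_mul] at hK; exact lt_irrefl _ hK
    have hq0 : (q : ℝ) ≠ 0 := by rintro h0; rw [h2, h0, mul_zero] at hK; exact lt_irrefl _ hK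
    rw [h2]
    push_cast
    field_simp
  rw [h1]
  exact De_rot hρ h hs hg hu q

theorem De_one_rev (hs : s ^ 2 < K * ρ ^ 2) {g : LM M} (hg : g ∈ XE M s) :
    De (Segs.ofUniqSeg hρ h) K 1 (L250.rev g) = L250.rev (De (Segs.ofUniqSeg hρ h) K 1 g) := by
  rw [De_one hρ h hs hg, De_one hρ h hs (rev_mem hg), sampleL_rev, prev_eq,
    H_rev (steps hρ h hs (sampleL_mem hg)) ⟨zero_le_one, le_rfl⟩, ← prev_eq]
  exact itpL_prev h hρ (lt_of_le_of_lt
    (H_mem_Pl hρ h hs (sampleL_mem hg) ⟨zero_le_one, le_rfl⟩) hs)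

/-! ### Fixed points and passing of critical levels -/

theorem crit_iff_of_mem (hs : s ^ 2 < K * ρ ^ 2) {x : ZMod K → M} (hx : x ∈ Pl M K s) :
    Crit (Segs.ofUniqSeg hρ h) x ↔ E x ≤ E ((Segs.ofUniqSeg hρ h).H 1 x) := by
  have h1 := (crit_tfae (steps hρ h hs hx) one_pos le_rfl).out 1 3
  rw [Crit, Segs.beta, h1, E_eq, E_eq, mul_le_mul_iff_right₀ cast_pos_K]

theorem De_eq_self (hs : s ^ 2 < K * ρ ^ 2) {g : LM M} (hg : g ∈ XE M s)
    (hE : s ^ 2 ≤ E (sampleL K g)) (hc : Crit (Segs.ofUniqSeg hρ h) (sampleL K g)) {u : ℝ}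
    (hu : u ∈ Icc (0 : ℝ) 1) : De (Segs.ofUniqSeg hρ h) K u g = g := by
  rcases le_total u (1 / 2) with h1 | h1
  · rw [De_of_le hρ h h1]
    exact MiL_eq_self h hρ hs hg hE ⟨by linarith [hu.1], by linarith⟩
  · have h2 : (s ^ 2 / K) < (Segs.ofUniqSeg hρ h).ρ ^ 2 := by
      rw [Segs.ofUniqSeg_ρ, div_lt_iff₀ cast_pos_K]; linarith
    have h3 : sampleL K g ∈ sub M K (s ^ 2 / K) := by
      have := sampleL_mem (K := K) hg
      show en _ ≤ _
      rw [le_div_iff₀ cast_pos_K, mul_comm]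
      exact this
    rw [De_of_ge hρ h hs h1 hg, hc.H_eq h2 h3 ⟨by linarith, by linarith [hu.2]⟩]
    exact itpL_sampleL_of_le h hρ hs hg hE

/-- Passing a critical level. -/
theorem De_pass {a : ℝ} (ha : 0 < a) (haT : a < T) (hT : T ^ 2 < K * ρ ^ 2) {U : Set (LM M)}
    (hU : IsOpen U) (hK : ∀ g ∈ XE M a, a ^ 2 ≤ E (sampleL K g) →
      Crit (Segs.ofUniqSeg hρ h) (sampleL K g) → g ∈ U) :
    ∃ ε > 0, ε ≤ a ∧ a + ε ≤ T ∧
      ∀ g ∈ XE M (a + ε), g ∉ U → De (Segs.ofUniqSeg hρ h) K 1 g ∈ XE M (a - ε) := by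
  by_contra hcon
  push Not at hcon
  have hT0 : 0 ≤ T := ha.le.trans haT.le
  set ε : ℕ → ℝ := fun n => min (1 / (n + 1 : ℝ)) (min a (T - a)) with hε
  have hεpos : ∀ n, 0 < ε n := fun n =>
    lt_min (by positivity) (lt_min ha (by linarith))
  have hε1 : ∀ n, ε n ≤ a := fun n => (min_le_right _ _).trans (min_le_left _ _)
  have hε2 : ∀ n, a + ε n ≤ T := fun n => by
    have : ε n ≤ T - a := (min_le_right _ _).trans (min_le_right _ _)
    linarith
  have hεlim : Tendsto ε atTop (𝓝 0) := by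
    refine squeeze_zero (fun n => (hεpos n).le) (fun n => min_le_left _ _)
      tendsto_one_div_add_atTop_nhds_zero_nat
  have hεanti : ∀ m n, m ≤ n → ε n ≤ ε m := by
    intro m n hmn
    apply min_le_min _ le_rfl
    have : (m : ℝ) ≤ n := by exact_mod_cast hmn
    gcongr
  choose g hg1 hg2 hg3 using fun n => hcon (ε n) (hεpos n) (hε1 n) (hε2 n)
  have hgT : ∀ n, g n ∈ XE M T := fun n =>
    XE_mono (by linarith [hεpos n]) (hε2 n) (hg1 n)
  obtain ⟨g₀, hg₀T, φ, hφ, hlim⟩ := (isCompact_XE hT0).tendsto_subseq hgT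
  -- the limit lies in `XE M a`
  have hg₀ : g₀ ∈ XE M a := by
    refine mem_XE_of_forall ha.le fun δ hδ => ?_
    have h1 : ∀ᶠ n in atTop, (g ∘ φ) n ∈ XE M (a + δ) := by
      have h2 := hεlim.comp hφ.tendsto_atTop
      filter_upwards [h2.eventually (gt_mem_nhds hδ)] with n hn
      exact XE_mono (by have := hεpos (φ n); linarith) (by
        simp only [Function.comp_apply] at hn; linarith) (hg1 (φ n))
    exact isClosed_XE.mem_of_tendsto hlim h1
  -- the energies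
  have hcont : ContinuousOn (fun g : LM M =>
      E ((Segs.ofUniqSeg hρ h).H 1 (sampleL K g))) (XE M T) := by
    have h1 : ContinuousOn (fun g : LM M => (Segs.ofUniqSeg hρ h).H 1 (sampleL K g)) (XE M T) :=
      (continuousOn_H_Pl hρ h hT).comp (f := fun g : LM M => ((1 : ℝ), sampleL K g))
        (Continuous.continuousOn (continuous_const.prodMk continuous_sampleL)) fun g hg =>
          ⟨⟨zero_le_one, le_rfl⟩, sampleL_mem hg⟩
    exact continuous_E.comp_continuousOn h1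
  have hE1 : ∀ n, (a - ε n) ^ 2 < E ((Segs.ofUniqSeg hρ h).H 1 (sampleL K (g n))) := by
    intro n
    by_contra hle
    push Not at hle
    apply hg3 n
    rw [De_one hρ h hT (hgT n)]
    refine itpL_mem h hρ ?_ hle
    refine lt_of_le_of_lt ?_ hT
    exact pow_le_pow_left₀ (by linarith [hε1 n]) (by linarith [hεpos n]) 2
  have hlim2 : Tendsto (fun n => E ((Segs.ofUniqSeg hρ h).H 1 (sampleL K (g (φ n))))) atTop
      (𝓝 (E ((Segs.ofUniqSeg hρ h).H 1 (sampleL K g₀)))) :=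
    (hcont g₀ hg₀T).tendsto.comp
      (tendsto_nhdsWithin_iff.2 ⟨hlim, Eventually.of_forall fun n => hgT (φ n)⟩)
  have hlim3 : Tendsto (fun n => (a - ε (φ n)) ^ 2) atTop (𝓝 (a ^ 2)) := by
    have h2 := (tendsto_const_nhds (x := a)).sub (hεlim.comp hφ.tendsto_atTop)
    have h3 := h2.pow 2
    simpa using h3
  have hE2 : a ^ 2 ≤ E ((Segs.ofUniqSeg hρ h).H 1 (sampleL K g₀)) :=
    le_of_tendsto_of_tendsto hlim3 hlim2 (Eventually.of_forall fun n => (hE1 (φ n)).le)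
  have haK : a ^ 2 < K * ρ ^ 2 := lt_of_le_of_lt (pow_le_pow_left₀ ha.le haT.le 2) hT
  have hmem := sampleL_mem (K := K) hg₀
  have hE3 : E ((Segs.ofUniqSeg hρ h).H 1 (sampleL K g₀)) ≤ E (sampleL K g₀) := by
    have := en_H_le (steps hρ h haK hmem) ⟨zero_le_one, le_rfl⟩
    rw [E_eq, E_eq]
    exact mul_le_mul_of_nonneg_left this cast_pos_K.le
  have hU₀ : g₀ ∈ U := by
    apply hK g₀ hg₀ (hE2.trans hE3)
    rw [crit_iff_of_mem hρ h haK hmem]
    exact le_trans hmem hE2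
  have hev := hlim.eventually (hU.mem_nhds hU₀)
  obtain ⟨n, hn⟩ := hev.exists
  exact hg2 (φ n) hn

/-! ### The descent moves little -/

omit [CompactSpace M] in
theorem dist_itp_le {s : ℝ} (h : UniqSeg M ρ) (hρ : 0 < ρ) (h0 : 0 ≤ s) (hs : s ^ 2 < K * ρ ^ 2)
    {x : ZMod K → M} (hx : x ∈ Pl M K s) (n : ℤ) {u : ℝ} (hu : u ∈ Icc (0 : ℝ) 1) :
    dist (itp x ((n + u) / K)) (x n) ≤ s / √K := by
  have hx' := lt_of_le_of_lt hx hs
  rw [itp_apply x n hu, dist_comm, dist_left_seg h (step_lt hρ hx' _) hu]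
  refine (mul_le_of_le_one_left dist_nonneg hu.2).trans ?_
  have h1 := (sq_step_le x n).trans (div_le_div_of_nonneg_right hx cast_pos_K.le)
  have h2 : (s / √K) ^ 2 = s ^ 2 / K := by
    rw [div_pow, Real.sq_sqrt cast_pos_K.le]
  rw [← h2] at h1
  exact (pow_le_pow_iff_left₀ dist_nonneg (by positivity) two_ne_zero).1 h1

theorem dist_H_self_le (hs : s ^ 2 < K * ρ ^ 2) (h0 : 0 ≤ s) {x : ZMod K → M}
    (hx : x ∈ Pl M K s) {τ : ℝ} (hτ : τ ∈ Icc (0 : ℝ) 1) (i : ZMod K) :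
    dist ((Segs.ofUniqSeg hρ h).H τ x i) (x i) ≤ s / √K := by
  have hstep : ∀ i : ZMod K, dist (x i) (x (i + 1)) ≤ s / √K := by
    intro i
    have h1 := (sq_step_le x i).trans (div_le_div_of_nonneg_right hx cast_pos_K.le)
    have h2 : (s / √K) ^ 2 = s ^ 2 / K := by
      rw [div_pow, Real.sq_sqrt cast_pos_K.le]
    rw [← h2] at h1
    exact (pow_le_pow_iff_left₀ dist_nonneg (by positivity) two_ne_zero).1 h1
  set S := Segs.ofUniqSeg hρ h with hS
  have hx' := steps hρ h hs hx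
  have h1 := S.mid_dl (dist_bw_fw_lt hx' hτ i)
  have h2 := dist_bw hx' hτ i
  have h3 := dist_bw_fw hx' hτ i
  have h4 : dist (x i) (S.H τ x i) ≤ dist (x i) (S.bw τ x i) +
      dist (S.bw τ x i) (S.H τ x i) := dist_triangle _ _ _
  have h5 : dist (S.bw τ x i) (S.H τ x i) = dist (S.bw τ x i) (S.fw τ x i) / 2 := h1
  rw [h2, h5] at h4
  have h6 := hstep (i - 1)
  rw [sub_add_cancel] at h6
  have h7 := hstep i
  have hd : 0 ≤ s / √K := by positivity
  rw [dist_comm]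
  nlinarith [hτ.1, hτ.2]

theorem dist_De_le (h0 : 0 ≤ s) (hs : s ^ 2 < K * ρ ^ 2) {g : LM M} (hg : g ∈ XE M s) {u : ℝ}
    (hu : u ∈ Icc (0 : ℝ) 1) : dist (De (Segs.ofUniqSeg hρ h) K u g) g ≤ 5 * (s / √K) := by
  have hd : 0 ≤ s / √K := by positivity
  have hMi : ∀ τ ∈ Icc (0 : ℝ) 1, dist (MiL K τ g) g ≤ 2 * (s / √K) := by
    intro τ hτ
    refine (dist_MiL_le h hρ hs hg hτ).trans ?_
    gcongr
    apply Real.sqrt_le_iff.2 ⟨hd, ?_⟩
    rw [div_pow, Real.sq_sqrt cast_pos_K.le]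
    exact div_le_div_of_nonneg_right (mul_le_of_le_one_right (sq_nonneg s) hτ.2) cast_pos_K.le
  rcases le_total u (1 / 2) with h1 | h1
  · rw [De_of_le hρ h h1]
    exact (hMi _ ⟨by linarith [hu.1], by linarith⟩).trans (by linarith)
  · rw [De_of_ge hρ h hs h1 hg]
    have h2 := hMi 1 ⟨zero_le_one, le_rfl⟩
    rw [MiL_one h hρ hs hg] at h2
    have hτ : 2 * u - 1 ∈ Icc (0 : ℝ) 1 := ⟨by linarith, by linarith [hu.2]⟩
    have hx := sampleL_mem (K := K) hg
    have hy := H_mem_Pl hρ h hs hx hτ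
    have h3 : dist (itpL ((Segs.ofUniqSeg hρ h).H (2 * u - 1) (sampleL K g)))
        (itpL (sampleL K g)) ≤ 3 * (s / √K) := by
      rw [dist_le_iff (by positivity)]
      intro t
      obtain ⟨n, v, hv, rfl⟩ := exists_eq_div K t
      rw [fn_itpL h hρ (lt_of_le_of_lt hy hs), fn_itpL h hρ (lt_of_le_of_lt hx hs)]
      have k1 := dist_itp_le h hρ h0 hs hy n hv
      have k2 := dist_itp_le h hρ h0 hs hx n hv
      have k3 := dist_H_self_le hρ h hs h0 hx hτ (n : ZMod K)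
      rw [dist_comm] at k2
      calc _ ≤ _ := dist_triangle4 _ ((Segs.ofUniqSeg hρ h).H (2 * u - 1) (sampleL K g) n)
            (sampleL K g n) _
        _ ≤ s / √K + s / √K + s / √K := add_le_add (add_le_add k1 k3) k2
        _ = 3 * (s / √K) := by ring
    calc _ ≤ _ := dist_triangle _ (itpL (sampleL K g)) _
      _ ≤ 3 * (s / √K) + 2 * (s / √K) := add_le_add h3 h2
      _ = 5 * (s / √K) := by ring

end

end Vale.Agent.P216.LS
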