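import Vale.Agent.P216.LS.Desc
import Vale.Agent.P216.Hol.DC
import Vale.Agent.P216.H494.CritCover
import Vale.Agent.P216.H494.CritLoop2

/-!
# The descent on the double cover (P216, Theorem A, (D4))

`exists_descent`: the descent of `LS/Desc.lean`, lifted to `Xt H T`, with all its properties.
-/

open Set Filter Topology

namespace Vale.Agent.P216.LS

open L250 H494 H288
open scoped ComplexConjugate

/-! ### The principal square root -/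

/-- The principal square root. -/
noncomputable def csq (z : ℂ) : ℂ := Complex.exp (Complex.log z / 2)

theorem csq_sq {z : ℂ} (hz : z ≠ 0) : csq z ^ 2 = z := by
  rw [csq, ← Complex.exp_nat_mul]
  push_cast
  rw [mul_div_cancel₀ _ (two_ne_zero' ℂ), Complex.exp_log hz]

theorem csq_one : csq 1 = 1 := by simp [csq]

theorem csq_conj {z : ℂ} (hz : z ∈ Complex.slitPlane) : csq (conj z) = conj (csq z) := by
  have h1 : z.arg ≠ Real.pi := (Complex.mem_slitPlane_iff_arg.1 hz).1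
  rw [csq, csq, Complex.log_conj _ h1, ← Complex.exp_conj, map_div₀, Complex.conj_ofNat]

theorem continuousOn_csq : ContinuousOn csq Complex.slitPlane :=
  Complex.continuous_exp.comp_continuousOn
    ((continuousOn_id.clog fun _ h => h).div_const 2)

theorem mem_slitPlane_of_norm_sub_one {z : ℂ} (h : ‖z - 1‖ < 1) : z ∈ Complex.slitPlane := by
  left
  have h1 := Complex.abs_re_le_norm (z - 1)
  rw [Complex.sub_re, Complex.one_re] at h1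
  have := (abs_lt.1 (h1.trans_lt h)).1
  linarith

variable {M : Type*} [MetricSpace M] {K : ℕ} [NeZero K] {ρ : ℝ}

/-- The descent on the double cover. -/
noncomputable def DD (H : Hol M) (S : Segs M) (K : ℕ) [NeZero K] (u : ℝ) (q : LM M × ℂ) :
    LM M × ℂ :=
  (De S K u q.1, q.2 * csq (H.hol (De S K u q.1) * conj (H.hol q.1)))

/-- `K` is good at level `T`. -/
structure Good (H : Hol M) (K : ℕ) [NeZero K] (ρ T : ℝ) : Prop where
  pos : 0 ≤ T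
  lt : T ^ 2 < K * ρ ^ 2
  hol : ∀ g ∈ XE M T, ∀ g' ∈ XE M T, dist g g' ≤ 5 * (T / √K) → dist (H.hol g) (H.hol g') < 1

section

variable [CompactSpace M] (H : Hol M) (hρ : 0 < ρ) (h : UniqSeg M ρ) {s T : ℝ}

theorem exists_good (hρ : 0 < ρ) (hT : 0 ≤ T) :
    ∃ N : ℕ, ∀ K : ℕ, [NeZero K] → N ≤ K → Good H K ρ T := by
  have huc := (isCompact_XE hT).uniformContinuousOn_of_continuous (H.continuousOn_hol T)
  rw [Metric.uniformContinuousOn_iff] at huc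
  obtain ⟨δ, hδ, hh⟩ := huc 1 one_pos
  obtain ⟨N1, hN1⟩ := exists_nat_gt (T ^ 2 / ρ ^ 2)
  obtain ⟨N2, hN2⟩ := exists_nat_gt ((5 * T / δ) ^ 2)
  refine ⟨max N1 N2, fun K hK hle => ⟨hT, ?_, ?_⟩⟩
  · have h1 : (N1 : ℝ) ≤ K := by exact_mod_cast (le_max_left _ _).trans hle
    have h2 := hN1.trans_le h1
    rwa [div_lt_iff₀ (by positivity)] at h2
  · intro g hg g' hg' hd
    refine hh g hg g' hg' (hd.trans_lt ?_)
    have h1 : (N2 : ℝ) ≤ K := by exact_mod_cast (le_max_right _ _).trans hle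
    have h2 := hN2.trans_le h1
    have h3 : 5 * T / δ < √K := Real.lt_sqrt_of_sq_lt h2
    have hK := cast_pos_K (K := K)
    have h4 : 0 < √(K : ℝ) := Real.sqrt_pos.2 hK
    rw [← mul_div_assoc, div_lt_iff₀ h4]
    rw [div_lt_iff₀ hδ] at h3
    linarith

variable {H} (hG : Good H K ρ T)
include hG

theorem Good.lt_of_le (h0 : 0 ≤ s) (hs : s ≤ T) : s ^ 2 < K * ρ ^ 2 :=
  (pow_le_pow_left₀ h0 hs 2).trans_lt hG.lt

theorem norm_ratio_sub_one {g : LM M} (hg : g ∈ XE M T) {u : ℝ} (hu : u ∈ Icc (0 : ℝ) 1) :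
    ‖H.hol (De (Segs.ofUniqSeg hρ h) K u g) * conj (H.hol g) - 1‖ < 1 := by
  have h1 := hG.hol _ (De_mem hρ h hG.lt hg hu) _ hg (dist_De_le hρ h hG.pos hG.lt hg hu)
  have h2 : H.hol (De (Segs.ofUniqSeg hρ h) K u g) * conj (H.hol g) - 1 =
      (H.hol (De (Segs.ofUniqSeg hρ h) K u g) - H.hol g) * conj (H.hol g) := by
    rw [sub_mul, H.mul_conj_hol]
  rw [h2, norm_mul, RCLike.norm_conj, H.norm_hol, mul_one, ← dist_eq_norm]
  exact h1

theorem ratio_mem {g : LM M} (hg : g ∈ XE M T) {u : ℝ} (hu : u ∈ Icc (0 : ℝ) 1) :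
    H.hol (De (Segs.ofUniqSeg hρ h) K u g) * conj (H.hol g) ∈ Complex.slitPlane :=
  mem_slitPlane_of_norm_sub_one (norm_ratio_sub_one hρ h hG hg hu)

omit hG in
theorem DD_snd_sq {q : LM M × ℂ} (hq : q.2 ^ 2 = H.hol q.1) (u : ℝ) :
    (DD H (Segs.ofUniqSeg hρ h) K u q).2 ^ 2 = H.hol (De (Segs.ofUniqSeg hρ h) K u q.1) := by
  have h1 : H.hol (De (Segs.ofUniqSeg hρ h) K u q.1) * conj (H.hol q.1) ≠ 0 :=
    mul_ne_zero (H.hol_ne_zero _) (by rw [H.conj_hol]; exact inv_ne_zero (H.hol_ne_zero _))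
  rw [DD, mul_pow, csq_sq h1, hq]
  calc H.hol q.1 * (H.hol (De (Segs.ofUniqSeg hρ h) K u q.1) * conj (H.hol q.1))
      = H.hol (De (Segs.ofUniqSeg hρ h) K u q.1) * (H.hol q.1 * conj (H.hol q.1)) := by ring
    _ = _ := by rw [H.mul_conj_hol, mul_one]

theorem DD_mem (h0 : 0 ≤ s) (hs : s ≤ T) {q : LM M × ℂ} (hq : q ∈ Xt H s) {u : ℝ}
    (hu : u ∈ Icc (0 : ℝ) 1) : DD H (Segs.ofUniqSeg hρ h) K u q ∈ Xt H s :=
  ⟨De_mem hρ h (hG.lt_of_le h0 hs) hq.1 hu, DD_snd_sq hρ h hq.2 u⟩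

omit hG in
theorem DD_eq_self {q : LM M × ℂ} {u : ℝ} (hq : De (Segs.ofUniqSeg hρ h) K u q.1 = q.1) :
    DD H (Segs.ofUniqSeg hρ h) K u q = q := by
  rw [DD, hq, H.mul_conj_hol, csq_one, mul_one]

omit hG in
theorem DD_zero (q : LM M × ℂ) : DD H (Segs.ofUniqSeg hρ h) K 0 q = q :=
  DD_eq_self hρ h (De_zero hρ h q.1)

theorem continuousOn_DD :
    ContinuousOn (fun q : ℝ × (LM M × ℂ) => DD H (Segs.ofUniqSeg hρ h) K q.1 q.2)
      (Icc (0 : ℝ) 1 ×ˢ Xt H T) := by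
  have h1 : ContinuousOn
      (fun q : ℝ × (LM M × ℂ) => De (Segs.ofUniqSeg hρ h) K q.1 q.2.1)
      (Icc (0 : ℝ) 1 ×ˢ Xt H T) :=
    (continuousOn_De hρ h hG.pos hG.lt).comp
      (f := fun q : ℝ × (LM M × ℂ) => (q.1, q.2.1)) (by fun_prop) fun q hq => ⟨hq.1, hq.2.1⟩
  have h2 : ContinuousOn
      (fun q : ℝ × (LM M × ℂ) => H.hol (De (Segs.ofUniqSeg hρ h) K q.1 q.2.1))
      (Icc (0 : ℝ) 1 ×ˢ Xt H T) :=
    (H.continuousOn_hol T).comp h1 fun q hq => De_mem hρ h hG.lt hq.2.1 hq.1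
  have h3 : ContinuousOn (fun q : ℝ × (LM M × ℂ) => conj (H.hol q.2.1))
      (Icc (0 : ℝ) 1 ×ˢ Xt H T) :=
    Complex.continuous_conj.comp_continuousOn ((H.continuousOn_hol T).comp
      (f := fun q : ℝ × (LM M × ℂ) => q.2.1) (by fun_prop) fun q hq => hq.2.1)
  have h4 : ContinuousOn (fun q : ℝ × (LM M × ℂ) =>
      csq (H.hol (De (Segs.ofUniqSeg hρ h) K q.1 q.2.1) * conj (H.hol q.2.1)))
      (Icc (0 : ℝ) 1 ×ˢ Xt H T) :=
    continuousOn_csq.comp (h2.mul h3) fun q hq => ratio_mem hρ h hG hq.2.1 hq.1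
  exact h1.prodMk ((by fun_prop : Continuous fun q : ℝ × (LM M × ℂ) => q.2.2).continuousOn.mul h4)

omit hG in
theorem DD_deckC (u : ℝ) (q : LM M × ℂ) : DD H (Segs.ofUniqSeg hρ h) K u (deckC q) =
    deckC (DD H (Segs.ofUniqSeg hρ h) K u q) := by
  ext1
  · rfl
  · simp [DD]

theorem DD_rotC {p : ℕ} (hp : p ∣ K) {q : LM M × ℂ} (hq : q ∈ Xt H T) {u : ℝ}
    (hu : u ∈ Icc (0 : ℝ) 1) : DD H (Segs.ofUniqSeg hρ h) K u (rotC (1 / p) q) =
      rotC (1 / p) (DD H (Segs.ofUniqSeg hρ h) K u q) := by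
  have h1 := De_rot_inv hρ h hp hG.lt hq.1 hu
  ext1
  · exact h1
  · simp only [DD, rotC_snd, rotC_fst]
    rw [h1, H.hol_rot, H.hol_rot]

theorem DD_revC {q : LM M × ℂ} (hq : q ∈ Xt H T) :
    DD H (Segs.ofUniqSeg hρ h) K 1 (revC q) = revC (DD H (Segs.ofUniqSeg hρ h) K 1 q) := by
  have h1 := De_one_rev hρ h hG.lt hq.1
  ext1
  · exact h1
  · simp only [DD, revC_snd, revC_fst]
    rw [h1, H.hol_rev, H.hol_rev, map_mul]
    congr 1
    rw [← map_mul]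
    exact csq_conj (ratio_mem hρ h hG hq.1 ⟨zero_le_one, le_rfl⟩)

/-- Passing a critical level. -/
theorem DD_pass (G : GeoList M) {a : ℝ} (ha : 0 < a) (haT : a < T) {U : Set (LM M × ℂ)}
    (hU : IsOpen U) (hK1 : Kt G H 1 a ⊆ U) (hK2 : Kt G H (-1) a ⊆ U) :
    ∃ ε > 0, ε ≤ a ∧ a + ε ≤ T ∧
      ∀ q ∈ Xt H (a + ε), q ∉ U → DD H (Segs.ofUniqSeg hρ h) K 1 q ∈ Xt H (a - ε) := by
  have hKpos := cast_pos_K (K := K)
  have hC : IsCompact (Xt H T ∩ Uᶜ) := (isCompact_Xt hG.pos).inter_right hU.isClosed_compl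
  have hU' : IsOpen (Prod.fst '' (Xt H T ∩ Uᶜ))ᶜ :=
    ((hC.image continuous_fst).isClosed).isOpen_compl
  have haK := hG.lt_of_le ha.le haT.le
  obtain ⟨ε, hε, hε1, hε2, hε3⟩ := De_pass hρ h ha haT hG.lt hU' (by
    rintro g hg hE hc ⟨q, ⟨hq1, hq2⟩, rfl⟩
    have hmem := sampleL_mem (K := K) hg
    have hEq : E (sampleL K q.1) = a ^ 2 := le_antisymm hmem hE
    have hst : ∀ i, dist (sampleL K q.1 i) (sampleL K q.1 (i + 1)) < ρ :=
      steps hρ h haK hmem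
    have he : a ^ 2 / K < (Segs.ofUniqSeg hρ h).ρ ^ 2 := by
      rw [Segs.ofUniqSeg_ρ, div_lt_iff₀ hKpos]; linarith
    have h3 : sampleL K q.1 ∈ sub M K (a ^ 2 / K) := by
      show en _ ≤ _
      rw [le_div_iff₀ hKpos, mul_comm]
      exact hmem
    obtain ⟨d, hd⟩ := (crit_iff' he h3).1 hc
    have h4 := itpL_sampleL_of_le h hρ haK hg hE
    have h5 : fn q.1 = itp (sampleL K q.1) := by
      conv_lhs => rw [← h4]
      exact funext (fn_itpL h hρ (lt_of_le_of_lt hmem haK))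
    rcases mem_KK_of_crit G hρ h ha hst hd hEq h5 with h6 | h6
    · exact hq2 (hK1 ⟨h6, hq1.2⟩)
    · exact hq2 (hK2 ⟨h6, hq1.2⟩))
  refine ⟨ε, hε, hε1, hε2, fun q hq hqU => ⟨?_, DD_snd_sq hρ h hq.2 1⟩⟩
  refine hε3 q.1 hq.1 fun hcon => hcon ?_
  exact ⟨q, ⟨Xt_mono (by linarith) hε2 hq, hqU⟩, rfl⟩

end

/-- **The descent (D4).** -/
theorem exists_descent [CompactSpace M] (G : GeoList M) (H : Hol M) (hρ : 0 < ρ)
    (h : UniqSeg M ρ) {p : ℕ} (hp : 0 < p) {T : ℝ} (hT : 0 ≤ T) :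
    ∃ D : ℝ → LM M × ℂ → LM M × ℂ,
      ContinuousOn (fun q : ℝ × (LM M × ℂ) => D q.1 q.2) (Icc (0 : ℝ) 1 ×ˢ Xt H T) ∧
      (∀ q, D 0 q = q) ∧
      (∀ s, 0 ≤ s → s ≤ T → ∀ u ∈ Icc (0 : ℝ) 1, ∀ q ∈ Xt H s, D u q ∈ Xt H s) ∧
      (∀ u q, D u (deckC q) = deckC (D u q)) ∧
      (∀ u ∈ Icc (0 : ℝ) 1, ∀ q ∈ Xt H T, D u (rotC (1 / p) q) = rotC (1 / p) (D u q)) ∧
      (∀ q ∈ Xt H T, D 1 (revC q) = revC (D 1 q)) ∧
      (∀ e, e = 1 ∨ e = -1 → ∀ a, 0 < a → a ≤ T → ∀ q ∈ Kt G H e a, ∀ u ∈ Icc (0 : ℝ) 1,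
        D u q = q) ∧
      (∀ a, 0 < a → a < T → ∀ U : Set (LM M × ℂ), IsOpen U → Kt G H 1 a ⊆ U →
        Kt G H (-1) a ⊆ U → ∃ ε > 0, ε ≤ a ∧ a + ε ≤ T ∧
          ∀ q ∈ Xt H (a + ε), q ∉ U → D 1 q ∈ Xt H (a - ε)) := by
  obtain ⟨r, hr, hrG⟩ := exists_scale G
  obtain ⟨N, hN⟩ := exists_good H hρ hT
  obtain ⟨N1, hN1⟩ := exists_nat_gt (T / r)
  obtain ⟨N2, hN2⟩ := exists_nat_gt (T / ρ)
  set L : ℕ := N + N1 + N2 + 1 with hL
  have hLp : 0 < p * L := Nat.mul_pos hp (by omega)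
  have : NeZero (p * L) := ⟨hLp.ne'⟩
  have hle : L ≤ p * L := Nat.le_mul_of_pos_left _ hp
  have hG : Good H (p * L) ρ T := hN _ (by omega)
  have hK1 : T ≤ (p * L : ℕ) * r := by
    have h1 : (N1 : ℝ) ≤ (p * L : ℕ) := by exact_mod_cast (by omega : N1 ≤ p * L)
    have h2 := hN1.le.trans h1
    rwa [div_le_iff₀ hr] at h2
  have hK2 : T < (p * L : ℕ) * ρ := by
    have h1 : (N2 : ℝ) ≤ (p * L : ℕ) := by exact_mod_cast (by omega : N2 ≤ p * L)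
    have h2 := hN2.trans_le h1
    rwa [div_lt_iff₀ hρ] at h2
  refine ⟨DD H (Segs.ofUniqSeg hρ h) (p * L), continuousOn_DD hρ h hG, DD_zero hρ h,
    fun s h0 hs u hu q hq => DD_mem hρ h hG h0 hs hq hu, DD_deckC hρ h,
    fun u hu q hq => DD_rotC hρ h hG (dvd_mul_right p L) hq hu, fun q hq => DD_revC hρ h hG hq,
    ?_, fun a ha haT U hU h1 h2 => DD_pass hρ h hG G ha haT hU h1 h2⟩
  intro e he a ha haT q hq u hu
  have hq1 : q.1 ∈ G.KK e a := hq.1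
  have hXE := KK_subset_XE he ha.le hq1
  have haK := hG.lt_of_le ha.le haT
  have hr1 : a ≤ (p * L : ℕ) * r := haT.trans hK1
  have hr2 : a < (p * L : ℕ) * ρ := haT.trans_lt hK2
  have hE := E_sample_eq he ha.le hq1 hrG hr1 hr2 h
  have hcr := crit_sample he ha.le hq1 hrG hr1 hr2 h hρ
  apply DD_eq_self
  refine De_eq_self hρ h haK hXE (le_of_eq hE.symm) ?_ hu
  have he' : a ^ 2 / (p * L : ℕ) < (Segs.ofUniqSeg hρ h).ρ ^ 2 := by
    rw [Segs.ofUniqSeg_ρ, div_lt_iff₀ cast_pos_K]; linarith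
  have h3 : sampleL (p * L) q.1 ∈ sub M (p * L) (a ^ 2 / (p * L : ℕ)) := by
    show en _ ≤ _
    rw [le_div_iff₀ cast_pos_K, mul_comm]
    exact sampleL_mem (K := p * L) hXE
  exact (crit_iff' he' h3).2 ⟨_, hcr⟩

end Vale.Agent.P216.LS
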