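import Vale.Agent.P216.LS.Lift
import Vale.Agent.P216.Spine.Build

/-!
# D4 in the form of `Spine/Build.lean`
-/

open Set

namespace Vale.Agent.P216.LS

open L250 H494 H288

/-- **(D4)** for the double cover of a compact space with unique short segments. -/
theorem descentStmt {M : Type} [MetricSpace M] [CompactSpace M] (H : Hol M) (G : GeoList M)
    {ρ : ℝ} (hρ : 0 < ρ) (h : UniqSeg M ρ) : DescentStmt H G := by
  intro p hp _ T hT
  obtain ⟨D, h1, h2, h3, h4, h5, h6, h7, h8⟩ := exists_descent G H hρ h hp.pos hT.le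
  have hX : XX H T = Xt H T := XX_eq hT.le
  refine ⟨D, ?_, fun x _ => h2 x, ?_, fun u _ x _ => h4 u x, ?_, ?_, ?_, ?_⟩
  · rw [hX]; exact h1
  · intro u hu s hs x hx
    exact h3 _ (le_max_right _ _) (max_le hs hT.le) u hu x hx
  · rw [hX]; exact h5
  · rw [hX]; exact h6
  · intro u hu a ha haT
    refine ⟨fun x hx => ?_, fun x hx => ?_⟩
    · rw [h7 1 (Or.inl rfl) a ha haT x hx u hu]; exact hx
    · rw [h7 (-1) (Or.inr rfl) a ha haT x hx u hu]; exact hx
  · intro a ha haT U hU hK
    obtain ⟨ε, hε, hε1, hε2, hε3⟩ := h8 a ha haT U hU (subset_union_left.trans hK)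
      (subset_union_right.trans hK)
    refine ⟨ε, hε, fun x hx hxU => ?_⟩
    rw [XX_eq (by linarith)] at hx
    rw [XX_eq (by linarith)]
    exact hε3 x hx hxU

end Vale.Agent.P216.LS
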