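import Mathlib.Topology.MetricSpace.Basic
import Mathlib.Topology.MetricSpace.Bounded
import Mathlib.Topology.Instances.Real.Lemmas
import Mathlib.Tactic

/-!
# Unique short segments in a metric space (P216, Theorem A)

`UniqSeg M ρ`: two points at distance `< ρ` have, for every `t ∈ [0, 1]`, exactly one point at
distances `t * d` and `(1 - t) * d` from them.  `seg x y t` is this point.
-/

open Set Filter Topology

namespace Vale.Agent.P216.LS

variable {M : Type*} [MetricSpace M]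

variable (M) in
/-- Unique interpolation points for points at distance `< ρ`. -/
def UniqSeg (ρ : ℝ) : Prop :=
  ∀ x y : M, dist x y < ρ → ∀ t ∈ Icc (0 : ℝ) 1,
    ∃! z, dist x z = t * dist x y ∧ dist z y = (1 - t) * dist x y

open Classical in
/-- The interpolation point. -/
noncomputable def seg (x y : M) (t : ℝ) : M :=
  if h : ∃ z, dist x z = t * dist x y ∧ dist z y = (1 - t) * dist x y then h.choose else x

variable {ρ : ℝ} {x y z : M} {s t u : ℝ}

theorem UniqSeg.mono (h : UniqSeg M ρ) {ρ' : ℝ} (hρ : ρ' ≤ ρ) : UniqSeg M ρ' :=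
  fun x y hxy => h x y (hxy.trans_le hρ)

theorem seg_spec (h : UniqSeg M ρ) (hxy : dist x y < ρ) (ht : t ∈ Icc (0 : ℝ) 1) :
    dist x (seg x y t) = t * dist x y ∧ dist (seg x y t) y = (1 - t) * dist x y := by
  have hex : ∃ z, dist x z = t * dist x y ∧ dist z y = (1 - t) * dist x y := (h x y hxy t ht).exists
  rw [seg, dif_pos hex]
  exact hex.choose_spec

theorem dist_left_seg (h : UniqSeg M ρ) (hxy : dist x y < ρ) (ht : t ∈ Icc (0 : ℝ) 1) :
    dist x (seg x y t) = t * dist x y := (seg_spec h hxy ht).1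

theorem dist_seg_right (h : UniqSeg M ρ) (hxy : dist x y < ρ) (ht : t ∈ Icc (0 : ℝ) 1) :
    dist (seg x y t) y = (1 - t) * dist x y := (seg_spec h hxy ht).2

theorem eq_seg (h : UniqSeg M ρ) (hxy : dist x y < ρ) (ht : t ∈ Icc (0 : ℝ) 1)
    (h1 : dist x z = t * dist x y) (h2 : dist z y = (1 - t) * dist x y) : z = seg x y t :=
  (h x y hxy t ht).unique ⟨h1, h2⟩ (seg_spec h hxy ht)

/-- A weaker pair of inequalities suffices. -/
theorem eq_seg_of_le (h : UniqSeg M ρ) (hxy : dist x y < ρ) (ht : t ∈ Icc (0 : ℝ) 1)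
    (h1 : dist x z ≤ t * dist x y) (h2 : dist z y ≤ (1 - t) * dist x y) : z = seg x y t := by
  have h3 := dist_triangle x z y
  apply eq_seg h hxy ht <;> nlinarith

@[simp] theorem seg_zero (x y : M) : seg x y 0 = x := by
  have hex : ∃ z, dist x z = (0 : ℝ) * dist x y ∧ dist z y = (1 - 0) * dist x y := ⟨x, by simp⟩
  rw [seg, dif_pos hex]
  exact (dist_eq_zero.1 (hex.choose_spec.1.trans (zero_mul _))).symm

@[simp] theorem seg_one (x y : M) : seg x y 1 = y := by
  have hex : ∃ z, dist x z = (1 : ℝ) * dist x y ∧ dist z y = (1 - 1) * dist x y := ⟨y, by simp⟩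
  rw [seg, dif_pos hex]
  exact dist_eq_zero.1 (hex.choose_spec.2.trans (by rw [sub_self, zero_mul]))

@[simp] theorem seg_self (x : M) (t : ℝ) : seg x x t = x := by
  have hex : ∃ z, dist x z = t * dist x x ∧ dist z x = (1 - t) * dist x x := ⟨x, by simp⟩
  rw [seg, dif_pos hex]
  exact (dist_eq_zero.1 (hex.choose_spec.1.trans (by rw [dist_self, mul_zero]))).symm

theorem seg_symm (h : UniqSeg M ρ) (hxy : dist x y < ρ) (ht : t ∈ Icc (0 : ℝ) 1) :
    seg y x (1 - t) = seg x y t := by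
  have hyx : dist y x < ρ := by rwa [dist_comm]
  have ht' : 1 - t ∈ Icc (0 : ℝ) 1 := ⟨by linarith [ht.2], by linarith [ht.1]⟩
  obtain ⟨h1, h2⟩ := seg_spec h hyx ht'
  apply eq_seg h hxy ht
  · rw [dist_comm, h2, dist_comm y x]; ring
  · rw [dist_comm, h1, dist_comm y x]

/-- The initial subsegments. -/
theorem seg_left (h : UniqSeg M ρ) (hxy : dist x y < ρ) (ht : t ∈ Icc (0 : ℝ) 1)
    (hu : u ∈ Icc (0 : ℝ) 1) : seg x (seg x y t) u = seg x y (u * t) := by
  obtain ⟨h1, h2⟩ := seg_spec h hxy ht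
  have hd := dist_nonneg (x := x) (y := y)
  have hxt : dist x (seg x y t) < ρ := by
    rw [h1]; exact (mul_le_of_le_one_left hd ht.2).trans_lt hxy
  obtain ⟨h3, h4⟩ := seg_spec h hxt hu
  have hut : u * t ∈ Icc (0 : ℝ) 1 :=
    ⟨mul_nonneg hu.1 ht.1, mul_le_one₀ hu.2 ht.1 ht.2⟩
  apply eq_seg_of_le h hxy hut
  · rw [h3, h1]; exact le_of_eq (by ring)
  · calc dist (seg x (seg x y t) u) y ≤
        dist (seg x (seg x y t) u) (seg x y t) + dist (seg x y t) y := dist_triangle _ _ _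
      _ = _ := by rw [h4, h2, h1]; ring

theorem dist_seg_seg (h : UniqSeg M ρ) (hxy : dist x y < ρ) (hs : s ∈ Icc (0 : ℝ) 1)
    (ht : t ∈ Icc (0 : ℝ) 1) : dist (seg x y s) (seg x y t) = |s - t| * dist x y := by
  wlog hst : s ≤ t generalizing s t
  · rw [dist_comm, this ht hs (le_of_not_ge hst), abs_sub_comm]
  rcases ht.1.eq_or_lt with h0 | h0
  · have : s = 0 := le_antisymm (hst.trans h0.ge) hs.1
    subst this
    subst h0
    simp
  · obtain ⟨h1, h2⟩ := seg_spec h hxy ht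
    have hd := dist_nonneg (x := x) (y := y)
    have hxt : dist x (seg x y t) < ρ := by
      rw [h1]; exact (mul_le_of_le_one_left hd ht.2).trans_lt hxy
    have hu : s / t ∈ Icc (0 : ℝ) 1 := ⟨div_nonneg hs.1 ht.1, (div_le_one h0).2 hst⟩
    have h3 := seg_left h hxy ht hu
    rw [div_mul_cancel₀ _ h0.ne'] at h3
    rw [← h3, (seg_spec h hxt hu).2, h1, abs_of_nonpos (by linarith)]
    field_simp
    ring

theorem dist_seg_seg_le (h : UniqSeg M ρ) (hxy : dist x y < ρ) (hs : 0 ≤ s) (hst : s ≤ t)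
    (ht : t ≤ 1) : dist (seg x y s) (seg x y t) = (t - s) * dist x y := by
  rw [dist_seg_seg h hxy ⟨hs, hst.trans ht⟩ ⟨hs.trans hst, ht⟩, abs_of_nonpos (by linarith)]
  ring

/-- Joint continuity of the interpolation point. -/
theorem continuousOn_seg [CompactSpace M] (h : UniqSeg M ρ) :
    ContinuousOn (fun p : M × M × ℝ => seg p.1 p.2.1 p.2.2)
      {p | dist p.1 p.2.1 < ρ ∧ p.2.2 ∈ Icc (0 : ℝ) 1} := by
  rintro ⟨x, y, t⟩ ⟨hxy, ht⟩
  simp only at hxy ht
  rw [ContinuousWithinAt]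
  apply isCompact_univ.le_nhds_of_unique_clusterPt (by simp)
  intro z _ hz
  -- the graph is closed
  rw [← mapClusterPt_def] at hz
  obtain ⟨U, hU, hUz⟩ := mapClusterPt_iff_ultrafilter.1 hz
  have hU1 : Tendsto (fun p : M × M × ℝ => p) U (𝓝 (x, y, t)) := hU.trans nhdsWithin_le_nhds
  have hU2 : ∀ᶠ p : M × M × ℝ in (U : Filter (M × M × ℝ)),
      dist p.1 p.2.1 < ρ ∧ p.2.2 ∈ Icc (0 : ℝ) 1 := hU self_mem_nhdsWithin
  have c1 : Tendsto (fun p : M × M × ℝ => p.1) U (𝓝 x) :=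
    (continuous_fst.tendsto (x, y, t)).comp hU1
  have c2 : Tendsto (fun p : M × M × ℝ => p.2.1) U (𝓝 y) :=
    ((continuous_fst.comp continuous_snd).tendsto (x, y, t)).comp hU1
  have c3 : Tendsto (fun p : M × M × ℝ => p.2.2) U (𝓝 t) :=
    ((continuous_snd.comp continuous_snd).tendsto (x, y, t)).comp hU1
  apply eq_seg h hxy ht
  · have e1 : Tendsto (fun p : M × M × ℝ => dist p.1 (seg p.1 p.2.1 p.2.2)) U (𝓝 (dist x z)) :=
      c1.dist hUz
    have e2 : Tendsto (fun p : M × M × ℝ => p.2.2 * dist p.1 p.2.1) U (𝓝 (t * dist x y)) :=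
      c3.mul (c1.dist c2)
    refine tendsto_nhds_unique e1 (e2.congr' ?_)
    filter_upwards [hU2] with p hp
    exact (seg_spec h hp.1 hp.2).1.symm
  · have e1 : Tendsto (fun p : M × M × ℝ => dist (seg p.1 p.2.1 p.2.2) p.2.1) U (𝓝 (dist z y)) :=
      hUz.dist c2
    have e2 : Tendsto (fun p : M × M × ℝ => (1 - p.2.2) * dist p.1 p.2.1) U
        (𝓝 ((1 - t) * dist x y)) := (tendsto_const_nhds.sub c3).mul (c1.dist c2)
    refine tendsto_nhds_unique e1 (e2.congr' ?_)
    filter_upwards [hU2] with p hp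
    exact (seg_spec h hp.1 hp.2).2.symm

/-- Continuity of the interpolation point along continuous data. -/
theorem ContinuousOn.seg [CompactSpace M] (h : UniqSeg M ρ) {T : Type*} [TopologicalSpace T]
    {S : Set T} {f g : T → M} {τ : T → ℝ} (hf : ContinuousOn f S) (hg : ContinuousOn g S)
    (hτ : ContinuousOn τ S) (hd : ∀ a ∈ S, dist (f a) (g a) < ρ)
    (hτ' : ∀ a ∈ S, τ a ∈ Icc (0 : ℝ) 1) :
    ContinuousOn (fun a => LS.seg (f a) (g a) (τ a)) S :=
  (continuousOn_seg h).comp (hf.prodMk (hg.prodMk hτ)) fun a ha => ⟨hd a ha, hτ' a ha⟩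

end Vale.Agent.P216.LS
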