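import Vale.Agent.P216.LS.Seg
import Vale.Agent.P216.L250.Energy

/-!
# Polygons and broken geodesics (P216, Theorem A)

Polygons are maps `x : ZMod K → M`; `E x = K * ∑ dist (x i) (x (i + 1)) ^ 2`; `sample K g` is the
polygon of the values of a 1-periodic `g : ℝ → M` at the multiples of `1 / K`; `itp x` is the broken
geodesic through the vertices.
-/

open Set Filter Topology

namespace Vale.Agent.P216.LS

open L250

variable {M : Type*} [MetricSpace M]

/-! ## Certificates -/

/-- A segment run through on `[a, b]`. -/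
theorem cert_seg {ρ : ℝ} (h : UniqSeg M ρ) {x y : M} (hxy : dist x y < ρ) {a b C : ℝ} (hab : a < b)
    (hC : dist x y ^ 2 ≤ (b - a) * C) :
    Cert (fun t => seg x y ((t - a) / (b - a))) (fun t => C * ((t - a) / (b - a))) a b := by
  intro s t hs hst ht
  have hba : 0 < b - a := sub_pos.2 hab
  have e1 : (t - a) / (b - a) - (s - a) / (b - a) = (t - s) / (b - a) := by ring
  rw [dist_seg_seg_le h hxy (div_nonneg (by linarith) hba.le) (by gcongr)
    ((div_le_one hba).2 (by linarith)), ← mul_sub, e1, mul_pow]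
  have h0 : (0 : ℝ) ≤ ((t - s) / (b - a)) ^ 2 := sq_nonneg _
  calc ((t - s) / (b - a)) ^ 2 * dist x y ^ 2 ≤ ((t - s) / (b - a)) ^ 2 * ((b - a) * C) :=
        mul_le_mul_of_nonneg_left hC h0
    _ = _ := by field_simp

/-- Certificates on the pieces `[i / K, (i + 1) / K]` glue. -/
theorem hasE_of_pieces {g : ℝ → M} (hg : Function.Periodic g 1) {K : ℕ} (hK : 0 < K)
    {c : ℕ → ℝ → ℝ} (h : ∀ i < K, Cert g (c i) (i / K) ((i + 1) / K)) :
    HasE g (∑ i ∈ Finset.range K, (c i ((i + 1) / K) - c i (i / K))) := by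
  have hK' : (0 : ℝ) < K := Nat.cast_pos.2 hK
  have key : ∀ n ≤ K, ∃ e : ℝ → ℝ, Cert g e 0 (n / K) ∧
      e (n / K) - e 0 = ∑ i ∈ Finset.range n, (c i ((i + 1) / K) - c i (i / K)) := by
    intro n
    induction n with
    | zero =>
      intro _
      refine ⟨fun _ => 0, ?_, by simp⟩
      intro s t hs hst ht
      have h1 : t ≤ 0 := by simpa using ht
      have : s = t := by linarith
      subst this
      simp
    | succ n ih =>
      intro hn
      obtain ⟨e, he1, he2⟩ := ih (by omega)
      have hlt : (n : ℝ) / K < (n + 1) / K := by gcongr; linarith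
      have hn0 : (0 : ℝ) ≤ n / K := by positivity
      refine ⟨fun t => if t ≤ n / K then e t else c n t - c n (n / K) + e (n / K), ?_, ?_⟩
      · push_cast
        apply Cert.glue (b := (n : ℝ) / K)
        · exact he1.congr (fun _ _ => rfl) fun t ht => if_pos ht.2
        · have h1 : Cert g (fun t => c n t - c n (n / K) + e (n / K)) (n / K) ((n + 1) / K) := by
            intro s t hs hst ht
            have := h n (by omega) s t hs hst ht
            simpa using this
          refine h1.congr (fun _ _ => rfl) fun t ht => ?_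
          by_cases h2 : t ≤ n / K
          · have : t = n / K := le_antisymm h2 ht.1
            subst this
            simp
          · simp [h2]
      · push_cast
        rw [Finset.sum_range_succ, ← he2, if_neg (not_le.2 hlt), if_pos hn0]
        ring
  obtain ⟨e, he1, he2⟩ := key K le_rfl
  rw [div_self hK'.ne'] at he1 he2
  exact hasE_of_cert hg he1 he2

/-! ## Polygons -/

section Poly

variable {K : ℕ} [NeZero K]

/-- The energy of a polygon. -/
noncomputable def E (x : ZMod K → M) : ℝ := K * ∑ i, dist (x i) (x (i + 1)) ^ 2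

/-- Polygons of energy at most `s ^ 2`. -/
def Pl (M : Type*) [MetricSpace M] (K : ℕ) [NeZero K] (s : ℝ) : Set (ZMod K → M) :=
  {x | E x ≤ s ^ 2}

theorem cast_pos_K : (0 : ℝ) < K := Nat.cast_pos.2 (NeZero.pos K)

theorem E_nonneg (x : ZMod K → M) : 0 ≤ E x := by
  unfold E; positivity

theorem continuous_E : Continuous (E : (ZMod K → M) → ℝ) := by
  unfold E; fun_prop

theorem isClosed_Pl (s : ℝ) : IsClosed (Pl M K s) := isClosed_le continuous_E continuous_const

theorem isCompact_Pl [CompactSpace M] (s : ℝ) : IsCompact (Pl M K s) := (isClosed_Pl s).isCompact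

theorem Pl_mono {s t : ℝ} (hs : 0 ≤ s) (hst : s ≤ t) : Pl M K s ⊆ Pl M K t :=
  fun _ hx => le_trans hx (pow_le_pow_left₀ hs hst 2)

theorem sq_step_le (x : ZMod K → M) (i : ZMod K) : dist (x i) (x (i + 1)) ^ 2 ≤ E x / K := by
  rw [E, mul_div_cancel_left₀ _ cast_pos_K.ne']
  exact Finset.single_le_sum (f := fun i => dist (x i) (x (i + 1)) ^ 2) (fun _ _ => sq_nonneg _)
    (Finset.mem_univ i)

theorem step_lt {x : ZMod K → M} {ρ : ℝ} (hρ : 0 < ρ) (hx : E x < K * ρ ^ 2) (i : ZMod K) :
    dist (x i) (x (i + 1)) < ρ := by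
  have h1 := sq_step_le x i
  have h2 : E x / K < ρ ^ 2 := by
    rw [div_lt_iff₀ cast_pos_K]; linarith
  exact lt_of_pow_lt_pow_left₀ 2 hρ.le (h1.trans_lt h2)

/-- Cyclic shift. -/
def pshift (j : ZMod K) (x : ZMod K → M) : ZMod K → M := fun i => x (i + j)

/-- Reversal. -/
def prev (x : ZMod K → M) : ZMod K → M := fun i => x (-i)

omit [NeZero K] [MetricSpace M] in
theorem pshift_apply (j : ZMod K) (x : ZMod K → M) (i : ZMod K) : pshift j x i = x (i + j) := rfl

omit [NeZero K] [MetricSpace M] in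
theorem prev_apply (x : ZMod K → M) (i : ZMod K) : prev x i = x (-i) := rfl

theorem E_pshift (j : ZMod K) (x : ZMod K → M) : E (pshift j x) = E x := by
  unfold E pshift
  congr 1
  refine Fintype.sum_equiv (Equiv.addRight j) _ _ fun i => ?_
  simp only [Equiv.coe_addRight]
  rw [add_right_comm]

theorem E_prev (x : ZMod K → M) : E (prev x) = E x := by
  unfold E prev
  congr 1
  refine Fintype.sum_equiv ((Equiv.neg (ZMod K)).trans (Equiv.subRight 1)) _ _ fun i => ?_
  simp only [Equiv.trans_apply, Equiv.neg_apply, Equiv.subRight_apply, sub_add_cancel]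
  rw [dist_comm]
  congr 2
  ring_nf

/-! ## Sampling -/

/-- The polygon of the values at the multiples of `1 / K`. -/
noncomputable def sample (K : ℕ) (g : ℝ → M) : ZMod K → M := fun i => g (i.val / K)

omit [MetricSpace M] in
theorem sample_intCast {g : ℝ → M} (hg : Function.Periodic g 1) (n : ℤ) :
    sample K g (n : ZMod K) = g (n / K) := by
  have hK := cast_pos_K (K := K)
  have h1 : ((n : ZMod K).val : ℤ) = n % K := ZMod.val_intCast n
  have h2 : (n : ℝ) / K = ((n : ZMod K).val : ℝ) / K + (n / (K : ℤ) : ℤ) := by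
    have h3 : n = n % K + K * (n / K) := (Int.emod_add_mul_ediv n K).symm
    have h4 : (n : ℝ) = ((n : ZMod K).val : ℝ) + K * ((n / (K : ℤ) : ℤ) : ℝ) := by
      have h5 : (n : ℝ) = ((n % K + K * (n / K) : ℤ) : ℝ) := by rw [← h3]
      rw [h5, ← h1]
      push_cast
      rfl
    rw [h4]
    field_simp
  rw [h2, sample]
  have := hg.int_mul (n / (K : ℤ)) (((n : ZMod K).val : ℝ) / K)
  rw [mul_one] at this
  exact this.symm

omit [MetricSpace M] in
theorem sample_natCast {g : ℝ → M} (hg : Function.Periodic g 1) (n : ℕ) :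
    sample K g (n : ZMod K) = g (n / K) := by
  have := sample_intCast (K := K) hg n
  simpa using this

theorem sum_zmod (f : ZMod K → ℝ) : ∑ i, f i = ∑ n ∈ Finset.range K, f (n : ZMod K) := by
  rw [Finset.sum_range (fun n : ℕ => f (n : ZMod K))]
  refine (Fintype.sum_bijective (fun n : Fin K => ((n : ℕ) : ZMod K)) ?_ _ _ fun _ => rfl).symm
  constructor
  · intro a b hab
    have hab' : ((a : ℕ) : ZMod K) = ((b : ℕ) : ZMod K) := hab
    rw [ZMod.natCast_eq_natCast_iff] at hab'
    exact Fin.ext (Nat.ModEq.eq_of_lt_of_lt hab' a.2 b.2)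
  · intro i
    exact ⟨⟨i.val, ZMod.val_lt i⟩, by simp⟩

theorem E_sample_le {g : ℝ → M} (hg : Function.Periodic g 1) {C : ℝ} (h : HasE g C) :
    E (sample K g) ≤ C := by
  obtain ⟨e, he, h0, h2⟩ := h.cert
  have hK := cast_pos_K (K := K)
  rw [E, sum_zmod, Finset.mul_sum]
  have h3 : ∀ n ∈ Finset.range K, (K : ℝ) *
      dist (sample K g (n : ZMod K)) (sample K g ((n : ZMod K) + 1)) ^ 2 ≤
      e ((n + 1 : ℕ) / K) - e ((n : ℕ) / K) := by
    intro n _
    have e1 : ((n : ZMod K) + 1) = ((n + 1 : ℕ) : ZMod K) := by push_cast; rfl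
    rw [e1, sample_natCast hg, sample_natCast hg]
    have h4 : (n : ℝ) / K ≤ ((n + 1 : ℕ) : ℝ) / K := by gcongr; linarith
    have h5 := h0 _ _ _ _ le_rfl h4 le_rfl
    have h6 : ((n + 1 : ℕ) : ℝ) / K - n / K = 1 / K := by push_cast; ring
    rw [h6, one_div, inv_mul_eq_div, le_div_iff₀ hK] at h5
    linarith
  refine (Finset.sum_le_sum h3).trans ?_
  rw [Finset.sum_range_sub (fun n : ℕ => e ((n : ℕ) / K))]
  have h7 := h2 0
  rw [zero_add, he] at h7
  rw [div_self hK.ne', h7, Nat.cast_zero, zero_div, he]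
  linarith

/-! ## Broken geodesics -/

/-- The broken geodesic through the vertices of a polygon. -/
noncomputable def itp (x : ZMod K → M) : ℝ → M := fun t =>
  seg (x (⌊K * t⌋ : ℤ)) (x ((⌊K * t⌋ : ℤ) + 1)) (Int.fract (K * t))

omit [NeZero K] in
theorem itp_periodic (x : ZMod K → M) : Function.Periodic (itp x) 1 := by
  intro t
  have h1 : (K : ℝ) * (t + 1) = K * t + (K : ℤ) := by push_cast; ring
  simp only [itp, h1, Int.floor_add_intCast, Int.fract_add_intCast]
  simp

theorem itp_apply (x : ZMod K → M) (n : ℤ) {u : ℝ} (hu : u ∈ Icc (0 : ℝ) 1) :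
    itp x ((n + u) / K) = seg (x n) (x (n + 1)) u := by
  have hK := cast_pos_K (K := K)
  have h1 : (K : ℝ) * ((n + u) / K) = n + u := by field_simp
  rw [itp, h1]
  rcases hu.2.eq_or_lt with h2 | h2
  · subst h2
    have h3 : (n : ℝ) + 1 = ((n + 1 : ℤ) : ℝ) := by push_cast; rfl
    rw [h3, Int.floor_intCast, Int.fract_intCast, seg_zero, seg_one]
    push_cast
    rfl
  · have h3 : ⌊(n : ℝ) + u⌋ = n := Int.floor_eq_iff.2 ⟨by linarith [hu.1], by linarith⟩
    have h4 : Int.fract ((n : ℝ) + u) = u := by rw [Int.fract, h3]; ring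
    rw [h3, h4]

theorem itp_int (x : ZMod K → M) (n : ℤ) : itp x (n / K) = x n := by
  have := itp_apply x n (u := 0) ⟨le_rfl, zero_le_one⟩
  simpa using this

theorem sample_itp (x : ZMod K → M) : sample K (itp x) = x := by
  ext i
  obtain ⟨n, rfl⟩ : ∃ n : ℤ, (n : ZMod K) = i := ⟨(i.val : ℤ), by simp⟩
  rw [sample_intCast (itp_periodic x), itp_int]

/-- Energy of the broken geodesic. -/
theorem hasE_itp {ρ : ℝ} (h : UniqSeg M ρ) {x : ZMod K → M}
    (hx : ∀ i, dist (x i) (x (i + 1)) < ρ) : HasE (itp x) (E x) := by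
  have hK := cast_pos_K (K := K)
  have key := hasE_of_pieces (itp_periodic x) (NeZero.pos K)
    (c := fun n t => ((K : ℝ) * dist (x (n : ZMod K)) (x ((n : ZMod K) + 1)) ^ 2) *
      ((t - n / K) / ((n + 1) / K - n / K))) ?_
  · convert key using 1
    rw [E, sum_zmod, Finset.mul_sum]
    refine Finset.sum_congr rfl fun n _ => ?_
    rw [show ((n : ℝ) + 1) / K - n / K = 1 / K by ring, div_self (one_div_ne_zero hK.ne'),
      sub_self, zero_div]
    ring
  · intro n _
    have hlt : (n : ℝ) / K < (n + 1) / K := by gcongr; linarith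
    have h1 := cert_seg h (hx (n : ZMod K)) (C := (K : ℝ) * dist (x (n : ZMod K))
      (x ((n : ZMod K) + 1)) ^ 2) hlt (by
        apply le_of_eq
        field_simp
        ring)
    refine h1.congr (fun t ht => ?_) fun t _ => rfl
    have h2 : t = (((n : ℤ) : ℝ) + ((t - n / K) / ((n + 1) / K - n / K))) / K := by
      push_cast
      field_simp
      ring
    have h3 : (t - n / K) / ((n + 1) / K - n / K) ∈ Icc (0 : ℝ) 1 := by
      constructor
      · exact div_nonneg (by linarith [ht.1]) (by linarith)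
      · rw [div_le_one (by linarith)]; linarith [ht.2]
    conv_lhs => rw [h2]
    rw [itp_apply x n h3]
    simp

theorem hasE_itp' {ρ : ℝ} (h : UniqSeg M ρ) (hρ : 0 < ρ) {x : ZMod K → M}
    (hx : E x < K * ρ ^ 2) : HasE (itp x) (E x) :=
  hasE_itp h fun i => step_lt hρ hx i

/-! ## Symmetries -/

omit [MetricSpace M] in
theorem sample_rot {g : ℝ → M} (hg : Function.Periodic g 1) (j : ℤ) :
    sample K (fun t => g (t + j / K)) = fun i => sample K g (i + (j : ZMod K)) := by
  have hg' : Function.Periodic (fun t => g (t + (j : ℝ) / K)) 1 := fun t => by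
    have := hg (t + j / K)
    simpa [add_right_comm] using this
  ext i
  obtain ⟨n, rfl⟩ : ∃ n : ℤ, (n : ZMod K) = i := ⟨(i.val : ℤ), by simp⟩
  rw [sample_intCast hg', ← Int.cast_add, sample_intCast hg]
  push_cast
  congr 1
  ring

omit [MetricSpace M] in
theorem sample_rev {g : ℝ → M} (hg : Function.Periodic g 1) :
    sample K (fun t => g (-t)) = fun i => sample K g (-i) := by
  have hg' : Function.Periodic (fun t => g (-t)) 1 := fun t => by
    have := hg.neg (-t)
    simpa [neg_add, add_comm] using this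
  ext i
  obtain ⟨n, rfl⟩ : ∃ n : ℤ, (n : ZMod K) = i := ⟨(i.val : ℤ), by simp⟩
  rw [sample_intCast hg', ← Int.cast_neg, sample_intCast hg]
  push_cast
  congr 1
  ring

theorem itp_pshift (x : ZMod K → M) (j : ℤ) (t : ℝ) :
    itp (pshift (j : ZMod K) x) t = itp x (t + j / K) := by
  have hK := cast_pos_K (K := K)
  have h1 : (K : ℝ) * (t + j / K) = K * t + j := by field_simp
  simp only [itp, h1, Int.floor_add_intCast, Int.fract_add_intCast, pshift]
  push_cast
  rw [add_right_comm]

theorem itp_prev {ρ : ℝ} (h : UniqSeg M ρ) {x : ZMod K → M}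
    (hx : ∀ i, dist (x i) (x (i + 1)) < ρ) (t : ℝ) : itp (prev x) t = itp x (-t) := by
  have hK := cast_pos_K (K := K)
  set n := ⌊(K : ℝ) * t⌋ with hn
  set u := Int.fract ((K : ℝ) * t) with hu
  have hu' : u ∈ Icc (0 : ℝ) 1 := ⟨Int.fract_nonneg _, (Int.fract_lt_one _).le⟩
  have h1 : t = (n + u) / K := by
    rw [hn, hu, Int.floor_add_fract]; field_simp
  have h2 : -t = (((-n - 1 : ℤ) : ℝ) + (1 - u)) / K := by
    rw [h1]; push_cast; ring
  have hu2 : 1 - u ∈ Icc (0 : ℝ) 1 := ⟨by linarith [hu'.2], by linarith [hu'.1]⟩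
  conv_lhs => rw [h1]
  rw [h2, itp_apply _ _ hu', itp_apply _ _ hu2]
  have h3 := hx ((-n - 1 : ℤ) : ZMod K)
  have e1 : ((-n - 1 : ℤ) : ZMod K) + 1 = -(n : ZMod K) := by push_cast; ring
  have e2 : -((n : ZMod K) + 1) = ((-n - 1 : ℤ) : ZMod K) := by push_cast; ring
  rw [e1] at h3 ⊢
  simp only [prev]
  rw [e2]
  have h4 := seg_symm h h3 (t := 1 - u) hu2
  rw [sub_sub_cancel] at h4
  exact h4

end Poly

end Vale.Agent.P216.LS
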