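import Vale.Agent.P216.LS.Maps

/-!
# The equality case: loops whose samples have the full energy are broken geodesics
(P216, Theorem A)
-/

open Set Filter Topology

namespace Vale.Agent.P216.LS

open L250

variable {M : Type*} [MetricSpace M] {K : ℕ} [NeZero K] {ρ : ℝ}

theorem hasE_of_lipschitz {g : ℝ → M} {a : ℝ} (h : ∀ s t, dist (g s) (g t) ≤ a * |s - t|) :
    HasE g (a ^ 2) := by
  refine ⟨fun t => a ^ 2 * t, fun s t hst => ?_, fun t => by ring⟩
  have h1 := h s t
  rw [abs_of_nonpos (by linarith)] at h1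
  calc dist (g s) (g t) ^ 2 ≤ (a * -(s - t)) ^ 2 := pow_le_pow_left₀ dist_nonneg h1 2
    _ = _ := by ring

theorem E_sample_of_speed {g : ℝ → M} (hg : Function.Periodic g 1) {a : ℝ}
    (h : ∀ n : ℕ, dist (g (n / K)) (g ((n + 1) / K)) = a / K) : E (sample K g) = a ^ 2 := by
  have hK := cast_pos_K (K := K)
  rw [E, sum_zmod]
  have h1 : ∀ n : ℕ, dist (sample K g (n : ZMod K)) (sample K g ((n : ZMod K) + 1)) ^ 2 =
      (a / K) ^ 2 := by
    intro n
    have e1 : ((n : ZMod K) + 1) = ((n + 1 : ℕ) : ZMod K) := by push_cast; rfl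
    rw [e1, sample_natCast hg, sample_natCast hg, ← h n]
    push_cast
    rfl
  simp only [h1]
  rw [Finset.sum_const, Finset.card_range, nsmul_eq_mul]
  field_simp

/-- Equality in the sampling inequality forces `g` to be the broken geodesic. -/
theorem eq_itp_of_le (h : UniqSeg M ρ) (hρ : 0 < ρ) {g : ℝ → M} (hg : Function.Periodic g 1)
    {C : ℝ} (hC : HasE g C) (hCK : C < K * ρ ^ 2) (hE : C ≤ E (sample K g)) :
    g = itp (sample K g) := by
  have hK := cast_pos_K (K := K)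
  have hx : E (sample K g) < K * ρ ^ 2 := lt_of_le_of_lt (E_sample_le hg hC) hCK
  obtain ⟨e, he, h0, h2⟩ := hC.cert
  -- the increments are forced
  have h3 : ∀ n ∈ Finset.range K, (K : ℝ) *
      dist (sample K g (n : ZMod K)) (sample K g ((n : ZMod K) + 1)) ^ 2 ≤
      e ((n + 1 : ℕ) / K) - e ((n : ℕ) / K) := by
    intro n _
    have e1 : ((n : ZMod K) + 1) = ((n + 1 : ℕ) : ZMod K) := by push_cast; rfl
    rw [e1, sample_natCast hg, sample_natCast hg]
    have h4 : (n : ℝ) / K ≤ ((n + 1 : ℕ) : ℝ) / K := by gcongr; linarith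
    have h5 := h0 _ _ _ _ le_rfl h4 le_rfl
    have h6 : ((n + 1 : ℕ) : ℝ) / K - n / K = 1 / K := by push_cast; ring
    rw [h6, one_div, inv_mul_eq_div, le_div_iff₀ hK] at h5
    linarith
  have h4 : ∑ n ∈ Finset.range K, (e ((n + 1 : ℕ) / K) - e ((n : ℕ) / K)) = C := by
    rw [Finset.sum_range_sub (fun n : ℕ => e ((n : ℕ) / K))]
    have h7 := h2 0
    rw [zero_add, he] at h7
    rw [div_self hK.ne', h7, Nat.cast_zero, zero_div, he]
    ring
  have h5 : ∑ n ∈ Finset.range K, (K : ℝ) *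
      dist (sample K g (n : ZMod K)) (sample K g ((n : ZMod K) + 1)) ^ 2 =
      ∑ n ∈ Finset.range K, (e ((n + 1 : ℕ) / K) - e ((n : ℕ) / K)) := by
    apply le_antisymm (Finset.sum_le_sum h3)
    rw [h4]
    refine hE.trans (le_of_eq ?_)
    rw [E, sum_zmod, Finset.mul_sum]
  have h6 := (Finset.sum_eq_sum_iff_of_le h3).1 h5
  -- the claim on `[0, 1)`
  have key : ∀ t, 0 ≤ t → t < 1 → g t = itp (sample K g) t := by
    intro t ht0 ht1
    have hKt : 0 ≤ (K : ℝ) * t := mul_nonneg hK.le ht0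
    set n := ⌊(K : ℝ) * t⌋₊ with hn
    set u := (K : ℝ) * t - n with hu
    have hn1 : (n : ℝ) ≤ K * t := Nat.floor_le hKt
    have hn2 : (K : ℝ) * t < n + 1 := Nat.lt_floor_add_one _
    have hnK : n < K := by
      rw [hn, Nat.floor_lt hKt]
      calc (K : ℝ) * t < K * 1 := by gcongr
        _ = K := mul_one _
    have hu0 : 0 ≤ u := by rw [hu]; linarith
    have hu1 : u < 1 := by rw [hu]; linarith
    have ht : t = (((n : ℤ) : ℝ) + u) / K := by rw [hu]; push_cast; field_simp; ring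
    set x := sample K g with hxdef
    have hstep := step_lt hρ hx (n : ZMod K)
    have hgn : g (n / K) = x (n : ZMod K) := (sample_natCast hg n).symm
    have hgn1 : g ((n + 1 : ℕ) / K) = x ((n : ZMod K) + 1) := by
      have e1 : ((n : ZMod K) + 1) = ((n + 1 : ℕ) : ZMod K) := by push_cast; rfl
      rw [e1, hxdef, sample_natCast hg]
    have h7 := h6 n (Finset.mem_range.2 hnK)
    conv_rhs => rw [ht]
    rw [itp_apply x n ⟨hu0, hu1.le⟩]
    rw [Int.cast_natCast]
    set d := dist (x (n : ZMod K)) (x ((n : ZMod K) + 1)) with hd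
    have hd0 : 0 ≤ d := dist_nonneg
    have c1 : (n : ℝ) / K ≤ t := by rw [div_le_iff₀ hK]; linarith
    have c2 : t ≤ ((n + 1 : ℕ) : ℝ) / K := by rw [le_div_iff₀ hK]; push_cast; linarith
    have p1 := h0 _ _ _ _ le_rfl c1 le_rfl
    have p2 := h0 _ _ _ _ le_rfl c2 le_rfl
    rw [hgn] at p1
    rw [hgn1] at p2
    have e1 : t - n / K = u / K := by rw [hu]; field_simp
    have e2 : ((n + 1 : ℕ) : ℝ) / K - t = (1 - u) / K := by rw [hu]; push_cast; field_simp; ring
    rw [e1] at p1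
    rw [e2] at p2
    set p := dist (x (n : ZMod K)) (g t) with hp
    set q := dist (g t) (x ((n : ZMod K) + 1)) with hq
    set A := e t - e (n / K) with hA
    set B := e ((n + 1 : ℕ) / K) - e t with hB
    have hAB : A + B = K * d ^ 2 := by rw [hA, hB, h7]; ring
    have htri : d ≤ p + q := dist_triangle _ _ _
    have q1 : (K : ℝ) * p ^ 2 ≤ u * A := by
      have := mul_le_mul_of_nonneg_left p1 hK.le
      calc (K : ℝ) * p ^ 2 ≤ K * (u / K * A) := this
        _ = u * A := by field_simp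
    have q2 : (K : ℝ) * q ^ 2 ≤ (1 - u) * B := by
      have := mul_le_mul_of_nonneg_left p2 hK.le
      calc (K : ℝ) * q ^ 2 ≤ K * ((1 - u) / K * B) := this
        _ = (1 - u) * B := by field_simp
    have q3 : (1 - u) * p ^ 2 + u * q ^ 2 ≤ u * (1 - u) * d ^ 2 := by
      have r1 := mul_le_mul_of_nonneg_left q1 (by linarith : (0 : ℝ) ≤ 1 - u)
      have r2 := mul_le_mul_of_nonneg_left q2 hu0
      have r3 : (K : ℝ) * ((1 - u) * p ^ 2 + u * q ^ 2) ≤ K * (u * (1 - u) * d ^ 2) := by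
        calc (K : ℝ) * ((1 - u) * p ^ 2 + u * q ^ 2) =
              (1 - u) * (K * p ^ 2) + u * (K * q ^ 2) := by ring
          _ ≤ (1 - u) * (u * A) + u * ((1 - u) * B) := add_le_add r1 r2
          _ = u * (1 - u) * (A + B) := by ring
          _ = _ := by rw [hAB]; ring
      exact le_of_mul_le_mul_left r3 hK
    have q4 : (1 - u) * p ^ 2 + u * q ^ 2 = ((1 - u) * p - u * q) ^ 2 +
        u * (1 - u) * (p + q) ^ 2 := by ring
    have q5 : d ^ 2 ≤ (p + q) ^ 2 := pow_le_pow_left₀ hd0 htri 2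
    have hp0 : 0 ≤ p := dist_nonneg
    have hq0 : 0 ≤ q := dist_nonneg
    have q6 : ((1 - u) * p - u * q) ^ 2 ≤ 0 := by
      have := mul_le_mul_of_nonneg_left q5 (mul_nonneg hu0 (by linarith : (0 : ℝ) ≤ 1 - u))
      linarith
    have q7 : (1 - u) * p = u * q := by
      have := pow_eq_zero_iff (two_ne_zero) |>.1 (le_antisymm q6 (sq_nonneg _))
      linarith
    -- `p = u * (p + q)`, `q = (1 - u) * (p + q)`
    have q8 : p = u * (p + q) := by linarith
    have q9 : q = (1 - u) * (p + q) := by linarith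
    rcases hu0.eq_or_lt with hu00 | hu00
    · have : p = 0 := by rw [q8, ← hu00, zero_mul]
      rw [← hu00, seg_zero]
      exact (dist_eq_zero.1 this).symm
    · have q10 : p + q ≤ d := by
        have r1 : u * (1 - u) * (p + q) ^ 2 ≤ u * (1 - u) * d ^ 2 := by
          have := sq_nonneg ((1 - u) * p - u * q)
          linarith
        have r2 := le_of_mul_le_mul_left r1 (mul_pos hu00 (by linarith))
        exact (pow_le_pow_iff_left₀ (by positivity) hd0 two_ne_zero).1 r2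
      apply eq_seg_of_le h hstep ⟨hu0, hu1.le⟩
      · calc p = u * (p + q) := q8
          _ ≤ u * d := mul_le_mul_of_nonneg_left q10 hu0
      · calc q = (1 - u) * (p + q) := q9
          _ ≤ (1 - u) * d := mul_le_mul_of_nonneg_left q10 (by linarith)
  ext t
  have h8 := hg.sub_zsmul_eq (x := t) ⌊t⌋
  have h9 := (itp_periodic (sample K g)).sub_zsmul_eq (x := t) ⌊t⌋
  simp only [zsmul_eq_mul, mul_one] at h8 h9
  rw [← h8, ← h9]
  exact key _ (Int.fract_nonneg t) (Int.fract_lt_one t)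

/-- The Milnor homotopy fixes broken geodesics. -/
theorem Mi_itp (h : UniqSeg M ρ) {x : ZMod K → M} (hx : ∀ i, dist (x i) (x (i + 1)) < ρ)
    {τ : ℝ} (hτ : τ ∈ Icc (0 : ℝ) 1) : Mi K τ (itp x) = itp x := by
  ext t
  obtain ⟨n, u, hu, rfl⟩ := exists_eq_div K t
  have hw : max u τ ∈ Icc (0 : ℝ) 1 := ⟨hu.1.trans (le_max_left _ _), max_le hu.2 hτ.2⟩
  rw [Mi_apply _ hτ n hu, itp_int, itp_apply x n hw, itp_apply x n hu]
  rcases hw.1.eq_or_lt with h1 | h1
  · have h2 : u = 0 := le_antisymm ((le_max_left u τ).trans h1.ge) hu.1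
    rw [h2, zero_div, seg_zero, seg_zero]
  · rw [seg_left h (hx _) hw ⟨div_nonneg hu.1 h1.le, (div_le_one h1).2 (le_max_left _ _)⟩,
      div_mul_cancel₀ _ h1.ne']

/-! ## The loop space versions -/

variable {s a : ℝ}

theorem itpL_sampleL_of_le (h : UniqSeg M ρ) (hρ : 0 < ρ) (hs : s ^ 2 < K * ρ ^ 2) {g : LM M}
    (hg : g ∈ XE M s) (hE : s ^ 2 ≤ E (sampleL K g)) : itpL (sampleL K g) = g := by
  refine ext_fn fun t => ?_
  rw [fn_itpL h hρ (lt_of_le_of_lt (sampleL_mem hg) hs)]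
  exact (congrFun (eq_itp_of_le h hρ (fn_periodic g) hg hs hE) t).symm

theorem MiL_itpL (h : UniqSeg M ρ) (hρ : 0 < ρ) {x : ZMod K → M} (hs : s ^ 2 < K * ρ ^ 2)
    (hx : x ∈ Pl M K s) {τ : ℝ} (hτ : τ ∈ Icc (0 : ℝ) 1) : MiL K τ (itpL x) = itpL x := by
  have hx' : E x < K * ρ ^ 2 := lt_of_le_of_lt hx hs
  refine ext_fn fun t => ?_
  have h1 : fn (itpL x) = itp x := funext (fn_itpL h hρ hx')
  rw [fn_MiL h hρ hs (itpL_mem h hρ hs hx) hτ, h1, Mi_itp h (fun i => step_lt hρ hx' i) hτ]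

/-- The Milnor homotopy fixes loops whose samples have the full energy. -/
theorem MiL_eq_self (h : UniqSeg M ρ) (hρ : 0 < ρ) (hs : s ^ 2 < K * ρ ^ 2) {g : LM M}
    (hg : g ∈ XE M s) (hE : s ^ 2 ≤ E (sampleL K g)) {τ : ℝ} (hτ : τ ∈ Icc (0 : ℝ) 1) :
    MiL K τ g = g := by
  have h1 := itpL_sampleL_of_le h hρ hs hg hE
  rw [← h1]
  exact MiL_itpL h hρ hs (sampleL_mem hg) hτ

end Vale.Agent.P216.LS
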