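import Vale.Agent.P216.LS.Local
import Vale.Agent.P216.GM.Spec

/-!
# F3a of `GM/Spec.lean`
-/

namespace Vale.Agent.P216.LS

/-- **F3a**: local ranks of loops are bounded by those of polygons. -/
theorem f3a {M : Type} [MetricSpace M] [CompactSpace M] : GM.F3a M :=
  fun _ _ h _ hr _ _ _ ha _ hg hfix hs _ hLR => LR_loop_of_polygon h hr ha hg hfix hs hLR

/-- The converse of F3a. -/
theorem f3a' {M : Type} [MetricSpace M] [CompactSpace M] {ρ r : ℝ} (h : UniqSeg M ρ) (hr : r < ρ)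
    {K : ℕ} [NeZero K] {a : ℝ} (ha : 0 < a) {g : L250.LM M} (hg : g ∈ L250.XE M a)
    (hfix : ∀ u ∈ Set.Icc (0 : ℝ) 1, MiL K u g = g) (hs : H844.Sht K r (L250.fn g)) {D : ℕ → ℕ}
    (hLR : GM.LR (GM.XL M) a {g} D) : GM.LR (GM.PL M K) a {sampleL K g} D :=
  LR_polygon_of_loop h hr ha hg hfix hs hLR

/-- From `q K`-gons to `K`-gons. -/
theorem f3b_aux {M : Type} [MetricSpace M] [CompactSpace M] {ρ r : ℝ} (h : UniqSeg M ρ)
    (hr : r < ρ) {K K' : ℕ} [NeZero K] [NeZero K'] {a : ℝ} (ha : 0 < a) {g : L250.LM M}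
    (hg : g ∈ L250.XE M a) (hfix : ∀ u ∈ Set.Icc (0 : ℝ) 1, MiL K u g = g)
    (hfix' : ∀ u ∈ Set.Icc (0 : ℝ) 1, MiL K' u g = g) (hs : H844.Sht K r (L250.fn g))
    (hs' : H844.Sht K' r (L250.fn g)) {D : ℕ → ℕ}
    (hLR : GM.LR (GM.PL M K') a {sampleL K' g} D) : GM.LR (GM.PL M K) a {sampleL K g} D :=
  f3a' h hr ha hg hfix hs (LR_loop_of_polygon h hr ha hg hfix' hs' hLR)

end Vale.Agent.P216.LS
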