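import Vale.Agent.P216.LS.F3a

/-!
# F3b of `GM/Spec.lean`: refinement of polygons
-/

open Set

namespace Vale.Agent.P216.LS

open L250 H844

variable {M : Type} [MetricSpace M] {K q : ℕ} [NeZero K] [NeZero q] {ρ r : ℝ}

/-- Distances along one edge of a broken geodesic. -/
theorem dist_edge (h : UniqSeg M ρ) {x : ZMod K → M} (hx : ∀ i, dist (x i) (x (i + 1)) < ρ)
    {γ : ℝ → M} (hγ : γ = itp x) (n : ℤ) {v w : ℝ} (hv : 0 ≤ v) (hvw : v ≤ w) (hw : w ≤ 1) :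
    dist (γ ((n + v) / K)) (γ ((n + w) / K)) = (w - v) * dist (x n) (x (n + 1)) := by
  rw [hγ, itp_apply x n ⟨hv, hvw.trans hw⟩, itp_apply x n ⟨hv.trans hvw, hw⟩,
    dist_seg_seg_le h (hx _) hv hvw hw]

theorem split_int (N : ℤ) : ∃ (n : ℤ) (j : ℕ), j + 1 ≤ q ∧ N = q * n + j := by
  have hq : (0 : ℤ) < q := by exact_mod_cast NeZero.pos q
  refine ⟨N / q, (N % q).toNat, ?_, ?_⟩
  · have h1 := Int.emod_nonneg N hq.ne'
    have h2 := Int.emod_lt_of_pos N hq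
    omega
  · rw [Int.toNat_of_nonneg (Int.emod_nonneg N hq.ne')]
    have := Int.mul_ediv_add_emod N q
    omega

theorem div_split {n : ℤ} {j : ℕ} {N : ℤ} (hN : N = q * n + j) (w : ℝ) :
    ((N : ℝ) + w) / ((q * K : ℕ) : ℝ) = (n + (j + w) / q) / K := by
  have hq := cast_pos_K (K := q)
  have hK := cast_pos_K (K := K)
  rw [hN]
  push_cast
  field_simp
  ring

section

variable (h : UniqSeg M ρ) (hr : r < ρ) {x : ZMod K → M}
  (hx : ∀ i, dist (x i) (x (i + 1)) ≤ r) {γ : ℝ → M} (hγ : γ = itp x)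
include h hr hx hγ

theorem dist_refine (N : ℤ) {v w : ℝ} (hv : 0 ≤ v) (hvw : v ≤ w) (hw : w ≤ 1) :
    ∃ d : ℝ, 0 ≤ d ∧ d ≤ r ∧ ∀ v w : ℝ, 0 ≤ v → v ≤ w → w ≤ 1 →
      dist (γ ((N + v) / ((q * K : ℕ) : ℝ))) (γ ((N + w) / ((q * K : ℕ) : ℝ))) =
        (w - v) / q * d := by
  obtain ⟨n, j, hj, hN⟩ := split_int (q := q) N
  have hq := cast_pos_K (K := q)
  have hj' : (j : ℝ) + 1 ≤ q := by exact_mod_cast hj
  have hj0 : (0 : ℝ) ≤ j := Nat.cast_nonneg j
  refine ⟨dist (x n) (x (n + 1)), dist_nonneg, hx _, fun v w hv hvw hw => ?_⟩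
  rw [div_split hN, div_split hN, dist_edge h (fun i => (hx i).trans_lt hr) hγ n (by positivity)
    (by gcongr) (by rw [div_le_one hq]; linarith)]
  ring

theorem Sht_refine : Sht (q * K) r γ := by
  intro N w hw
  have hq := cast_pos_K (K := q)
  obtain ⟨d, hd, hdr, h1⟩ := dist_refine (q := q) h hr hx hγ N le_rfl hw.1 hw.2
  have := h1 0 w le_rfl hw.1 hw.2
  rw [add_zero] at this
  rw [this, sub_zero]
  have hq1 : (1 : ℝ) ≤ q := by exact_mod_cast NeZero.pos q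
  have h2 : w / q ≤ 1 := by
    rw [div_le_one hq]; exact hw.2.trans hq1
  exact (mul_le_of_le_one_left hd h2).trans hdr

theorem Mi_refine {u : ℝ} (hu : u ∈ Icc (0 : ℝ) 1) : Mi (q * K) u γ = γ := by
  have hq := cast_pos_K (K := q)
  ext t
  obtain ⟨N, v, hv, rfl⟩ := exists_eq_div (q * K) t
  rw [Mi_apply γ hu N hv]
  obtain ⟨d, hd, hdr, h1⟩ := dist_refine (q := q) h hr hx hγ N le_rfl hv.1 hv.2
  have hq1 : (1 : ℝ) ≤ q := by exact_mod_cast NeZero.pos q
  have hm : max v u ≤ 1 := max_le hv.2 hu.2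
  have hvm : v ≤ max v u := le_max_left _ _
  have hm0 : 0 ≤ max v u := hv.1.trans hvm
  set m := max v u with hmdef
  have e1 := h1 0 m le_rfl hm0 hm
  have e2 := h1 0 v le_rfl hv.1 hv.2
  have e3 := h1 v m hv.1 hvm hm
  rw [add_zero] at e1 e2
  rcases hm0.eq_or_lt with h0 | h0
  · have hv0 : v = 0 := le_antisymm (hvm.trans h0.ge) hv.1
    rw [← h0, hv0]
    simp
  · symm
    refine eq_seg h ?_ ⟨div_nonneg hv.1 hm0, (div_le_one h0).2 hvm⟩ ?_ ?_
    · rw [e1, sub_zero]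
      have h2 : m / q ≤ 1 := by
        rw [div_le_one hq]; exact hm.trans hq1
      exact ((mul_le_of_le_one_left hd h2).trans hdr).trans_lt hr
    · rw [e1, e2, sub_zero, sub_zero]; field_simp
    · rw [e1, e3, sub_zero]; field_simp

end

/-- **F3b** -/
theorem f3b [CompactSpace M] : GM.F3b M := by
  intro ρ r h h0 hr K q _ _ a ha g hg hfix hs D hLR
  have hx : ∀ i, dist (sampleL K g i) (sampleL K g (i + 1)) ≤ r := hs.step (fn_periodic g)
  have hx' : ∀ i, dist (sampleL K g i) (sampleL K g (i + 1)) < ρ := fun i => (hx i).trans_lt hr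
  have hγ : fn g = itp (sampleL K g) := by
    have h1 := MiL_one_loc h hr ⟨hg, hs⟩
    rw [hfix 1 ⟨zero_le_one, le_rfl⟩] at h1
    conv_lhs => rw [h1]
    exact funext (fn_itpL_loc h hx')
  have hs' : Sht (q * K) r (fn g) := Sht_refine h hr hx hγ
  refine f3b_aux h hr ha hg hfix (fun u hu => ?_) hs hs' hLR
  refine ext_fn fun t => ?_
  rw [fn_MiL_loc h hr ⟨hg, hs'⟩ hu, Mi_refine h hr hx hγ hu]

end Vale.Agent.P216.LS
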